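import Vale.Agent.N252.Area

/-! # Curves of finite affine length: preimages of rays under the gradient map -/

open MeasureTheory Filter Topology Set
open scoped ContDiff ENNReal InnerProductSpace

namespace Vale.Agent.N252

open Vale.Agent.P252 Vale.Agent.P252.R

variable {n : ℕ} {Ω : Set (En n)} {v : En n → ℝ}

/-! ### the affine distance -/

/-- the affine speed of a curve -/
noncomputable def spd (v : En n → ℝ) (γ : ℝ → En n) (t : ℝ) : ℝ :=
  Real.sqrt (affMetric v (γ t) (deriv γ t))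

theorem continuousOn_spd (h : SC Ω v) {J : Set ℝ} (hJ : IsOpen J) {γ : ℝ → En n}
    (hγ : ContDiffOn ℝ 1 γ J) (hin : ∀ t ∈ J, γ t ∈ Ω) : ContinuousOn (spd v γ) J :=
  ((continuousOn_affMetric h.op h.sm h.pos).comp
    (hγ.continuousOn.prodMk (hγ.continuousOn_deriv_of_isOpen hJ le_rfl))
    (fun t ht => ⟨hin t ht, mem_univ _⟩)).sqrt

theorem affDist_le (h : SC Ω v) {J : Set ℝ} (hJ : IsOpen J) (hJc : OrdConnected J)
    {γ : ℝ → En n} (hγ : ContDiffOn ℝ 1 γ J) (hin : ∀ t ∈ J, γ t ∈ Ω) {s t : ℝ} (hs : s ∈ J)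
    (ht : t ∈ J) : affDist Ω v (γ s) (γ t) ≤ |∫ x in s..t, spd v γ x| := by
  set φ : ℝ → ℝ := fun τ => s + (1 - Real.cos (Real.pi * τ)) / 2 * (t - s) with hφ
  set φ' : ℝ → ℝ := fun τ => Real.pi * Real.sin (Real.pi * τ) / 2 * (t - s) with hφ'
  have hφd : ∀ τ, HasDerivAt φ (φ' τ) τ := by
    intro τ
    have h1 : HasDerivAt (fun τ => Real.cos (Real.pi * τ)) (-Real.sin (Real.pi * τ) * Real.pi) τ := by
      simpa using ((hasDerivAt_id τ).const_mul Real.pi).cos
    have h2 := ((((h1.const_sub 1).div_const 2).mul_const (t - s)).const_add s)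
    exact h2.congr_deriv (by simp only [hφ']; ring)
  have hφJ : ∀ τ, φ τ ∈ J := by
    intro τ
    refine hJc.uIcc_subset hs ht ?_
    have h1 := Real.cos_le_one (Real.pi * τ)
    have h2 := Real.neg_one_le_cos (Real.pi * τ)
    rcases le_total s t with hst | hst
    · rw [uIcc_of_le hst]
      constructor <;> simp only [hφ] <;> nlinarith
    · rw [uIcc_of_ge hst]
      constructor <;> simp only [hφ] <;> nlinarith
  have hφ0 : φ 0 = s := by simp [hφ]
  have hφ1 : φ 1 = t := by simp [hφ]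
  have hc : ContDiff ℝ 1 (γ ∘ φ) := hγ.comp_contDiff (by rw [hφ]; fun_prop) hφJ
  have hsp : ∀ τ, Real.sqrt (affMetric v ((γ ∘ φ) τ) (deriv (γ ∘ φ) τ)) =
      spd v γ (φ τ) * |φ' τ| := by
    intro τ
    have h1 : HasDerivAt γ (deriv γ (φ τ)) (φ τ) :=
      ((hγ.contDiffAt (hJ.mem_nhds (hφJ τ))).differentiableAt one_ne_zero).hasDerivAt
    rw [(h1.scomp τ (hφd τ)).deriv, affMetric_smul, Real.sqrt_mul (sq_nonneg _),
      Real.sqrt_sq_eq_abs, mul_comm]
    rfl
  have hint : ∫ τ in (0 : ℝ)..1, (spd v γ ∘ φ) τ * φ' τ = ∫ x in s..t, spd v γ x := by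
    rw [intervalIntegral.integral_comp_mul_deriv' (fun τ _ => hφd τ)
      (by rw [hφ']; fun_prop) ((continuousOn_spd h hJ hγ hin).mono (by
        rintro _ ⟨τ, -, rfl⟩
        exact hφJ τ)), hφ0, hφ1]
  have hlen : affLength v (γ ∘ φ) ≤ |∫ x in s..t, spd v γ x| := by
    unfold affLength
    simp only [hsp]
    have hsin : ∀ τ ∈ uIcc (0 : ℝ) 1, 0 ≤ Real.pi * Real.sin (Real.pi * τ) / 2 := by
      intro τ hτ
      rw [uIcc_of_le zero_le_one] at hτ
      have := Real.sin_nonneg_of_nonneg_of_le_pi (mul_nonneg Real.pi_pos.le hτ.1)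
        (mul_le_of_le_one_right Real.pi_pos.le hτ.2)
      have := Real.pi_pos
      positivity
    rw [← hint]
    rcases le_total s t with hst | hst
    · refine le_trans (le_of_eq ?_) (le_abs_self _)
      refine intervalIntegral.integral_congr fun τ hτ => ?_
      simp only [Function.comp]
      rw [abs_of_nonneg (mul_nonneg (hsin τ hτ) (sub_nonneg.2 hst))]
    · refine le_trans (le_of_eq ?_) (neg_le_abs _)
      rw [← intervalIntegral.integral_neg]
      refine intervalIntegral.integral_congr fun τ hτ => ?_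
      simp only [Function.comp]
      rw [abs_of_nonpos (mul_nonpos_of_nonneg_of_nonpos (hsin τ hτ) (sub_nonpos.2 hst))]
      ring
  refine (csInf_le ⟨0, ?_⟩ ?_).trans hlen
  · rintro L ⟨γ, -, -, -, -, rfl⟩
    exact affLength_nonneg v γ
  · exact ⟨γ ∘ φ, hc, by simp [hφ0], by simp [hφ1], fun τ _ => hin _ (hφJ τ), rfl⟩

/-- convergence in the affine distance implies convergence -/
theorem tendsto_of_affDist (h : SC Ω v) (hcv : Convex ℝ Ω) {x : ℕ → En n} (hx : ∀ k, x k ∈ Ω)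
    {y : En n} (hy : y ∈ Ω) (hlim : Tendsto (fun k => affDist Ω v (x k) y) atTop (𝓝 0)) :
    Tendsto x atTop (𝓝 y) := by
  obtain ⟨r, hr, hball⟩ := Metric.nhds_basis_closedBall.mem_iff.1 (h.op.mem_nhds hy)
  obtain ⟨c, hc, C, -, hb⟩ := affMetric_bounds_on h.op h.sm h.pos _ (isCompact_closedBall y r) hball
  have key : ∀ ρ, 0 < ρ → ρ ≤ r → ∀ a ∈ Ω, ρ ≤ dist a y → c * ρ ≤ affDist Ω v a y := by
    intro ρ hρ hρr a ha hay
    refine le_csInf ⟨_, fun t => a + t • (y - a), by fun_prop, by simp, by simp,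
      segment_mem hcv ha hy, rfl⟩ ?_
    rintro L ⟨γ, hγ, h0, h1, hin, rfl⟩
    have hTc : IsCompact (Icc (0 : ℝ) 1 ∩ {t | ρ ≤ dist (γ t) y}) :=
      isCompact_Icc.inter_right (isClosed_le continuous_const (hγ.continuous.dist continuous_const))
    obtain ⟨t₁, ⟨ht₁, ht₁'⟩, hmax⟩ := hTc.exists_isGreatest
      ⟨0, ⟨le_rfl, zero_le_one⟩, by simpa [h0] using hay⟩
    have hd : Continuous (deriv γ) := hγ.continuous_deriv le_rfl
    have h2 : ∫ t in t₁..1, deriv γ t = γ 1 - γ t₁ :=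
      intervalIntegral.integral_deriv_eq_sub
        (fun t _ => (hγ.differentiable one_ne_zero).differentiableAt) (hd.intervalIntegrable _ _)
    have hsp := continuousOn_affSpeed h.op h.sm h.pos γ hγ hin
    calc c * ρ ≤ c * ‖∫ t in t₁..1, deriv γ t‖ := by
          refine mul_le_mul_of_nonneg_left ?_ hc.le
          rw [h2, h1, ← dist_eq_norm, dist_comm]
          exact ht₁'
      _ ≤ c * ∫ t in t₁..1, ‖deriv γ t‖ := mul_le_mul_of_nonneg_left
          (intervalIntegral.norm_integral_le_integral_norm ht₁.2) hc.le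
      _ = ∫ t in t₁..1, c * ‖deriv γ t‖ := by rw [intervalIntegral.integral_const_mul]
      _ ≤ ∫ t in t₁..1, Real.sqrt (affMetric v (γ t) (deriv γ t)) := by
          refine intervalIntegral.integral_mono_on_of_le_Ioo ht₁.2
            ((hd.norm.const_mul c).intervalIntegrable _ _)
            ((hsp.mono (Icc_subset_Icc ht₁.1 le_rfl)).intervalIntegrable_of_Icc ht₁.2)
            fun t ht => ?_
          refine Real.le_sqrt_of_sq_le (hb _ ?_ _).1
          by_contra hcon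
          rw [Metric.mem_closedBall, not_le] at hcon
          have := hmax ⟨⟨ht₁.1.trans ht.1.le, ht.2.le⟩, hρr.trans hcon.le⟩
          exact absurd ht.1 (not_lt.2 this)
      _ ≤ affLength v γ := by
          unfold affLength
          exact intervalIntegral.integral_mono_interval ht₁.1 ht₁.2 le_rfl
            (Eventually.of_forall fun _ => Real.sqrt_nonneg _)
            (hsp.intervalIntegrable_of_Icc zero_le_one)
  rw [Metric.tendsto_atTop]
  intro ε hε
  have hρ : 0 < min ε r := lt_min hε hr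
  obtain ⟨N, hN⟩ := eventually_atTop.1 (hlim.eventually (gt_mem_nhds (mul_pos hc hρ)))
  refine ⟨N, fun k hk => ?_⟩
  by_contra hcon
  exact absurd (hN k hk) (not_lt.2 (key _ hρ (min_le_right _ _) _ (hx k)
    ((min_le_left _ _).trans (not_lt.1 hcon))))

/-- a curve of finite affine length converges -/
theorem converge (h : SC Ω v) (hcv : Convex ℝ Ω) (hA : AffineComplete Ω v) {J : Set ℝ}
    (hJ : IsOpen J) (hJc : OrdConnected J) {γ : ℝ → En n} (hγ : ContDiffOn ℝ 1 γ J)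
    (hin : ∀ t ∈ J, γ t ∈ Ω) {B : ℝ}
    (hB : ∀ s ∈ J, ∀ t ∈ J, s ≤ t → ∫ x in s..t, spd v γ x ≤ B) {t : ℕ → ℝ} (ht : ∀ k, t k ∈ J)
    (hm : Monotone t ∨ Antitone t) : ∃ y ∈ Ω, Tendsto (fun k => γ (t k)) atTop (𝓝 y) := by
  have hint : ∀ a ∈ J, ∀ b ∈ J, IntervalIntegrable (spd v γ) volume a b := fun a ha b hb =>
    ((continuousOn_spd h hJ hγ hin).mono (hJc.uIcc_subset ha hb)).intervalIntegrable
  set F : ℕ → ℝ := fun k => ∫ x in t 0..t k, spd v γ x with hF
  have hFd : ∀ i j, F j - F i = ∫ x in t i..t j, spd v γ x := fun i j =>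
    intervalIntegral.integral_interval_sub_left (hint _ (ht 0) _ (ht j)) (hint _ (ht 0) _ (ht i))
  have hnn : ∀ a b : ℝ, a ≤ b → 0 ≤ ∫ x in a..b, spd v γ x := fun a b hab =>
    intervalIntegral.integral_nonneg hab fun _ _ => Real.sqrt_nonneg _
  have hC : CauchySeq F := by
    rcases hm with hm | hm
    · have h1 : Monotone F := fun i j hij => by
        have := hnn _ _ (hm hij)
        rw [← hFd] at this
        linarith
      have h2 : BddAbove (range F) := ⟨B, by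
        rintro _ ⟨k, rfl⟩
        exact hB _ (ht 0) _ (ht k) (hm (Nat.zero_le k))⟩
      exact (tendsto_atTop_ciSup h1 h2).cauchySeq
    · have h1 : Antitone F := fun i j hij => by
        have := hnn _ _ (hm hij)
        rw [← hFd] at this
        linarith
      have h2 : BddBelow (range F) := ⟨-B, by
        rintro _ ⟨k, rfl⟩
        have := hB _ (ht k) _ (ht 0) (hm (Nat.zero_le k))
        rw [intervalIntegral.integral_symm] at this
        simp only [hF]
        linarith⟩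
      exact (tendsto_atTop_ciInf h1 h2).cauchySeq
  obtain ⟨y, hy, hlim⟩ := hA (fun k => γ (t k)) (fun k => hin _ (ht k)) fun ε hε => by
    obtain ⟨N, hN⟩ := Metric.cauchySeq_iff.1 hC ε hε
    refine ⟨N, fun i hi j hj => (affDist_le h hJ hJc hγ hin (ht i) (ht j)).trans_lt ?_⟩
    rw [← hFd, ← Real.dist_eq]
    exact hN j hj i hi
  exact ⟨y, hy, tendsto_of_affDist h hcv (fun k => hin _ (ht k)) hy hlim⟩

/-! ### the inverse of the gradient map -/

/-- the inverse of the gradient map -/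
noncomputable def gi (Ω : Set (En n)) (v : En n → ℝ) : En n → En n :=
  Function.invFunOn (H402.grad v) Ω

theorem gi_grad (h : SC Ω v) (hcv : Convex ℝ Ω) {x : En n} (hx : x ∈ Ω) :
    gi Ω v (H402.grad v x) = x := (injOn_grad h hcv).leftInvOn_invFunOn hx

theorem contDiffAt_grad (h : SC Ω v) {x : En n} (hx : x ∈ Ω) :
    ContDiffAt ℝ 1 (H402.grad v) x := by
  refine contDiffAt_euclidean.2 fun i => ?_
  exact ((Vale.Agent.P252.contDiffOn_pd h.op i v h.sm).contDiffAt (h.op.mem_nhds hx)).of_le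
    (by exact_mod_cast le_top)

theorem local_inv (h : SC Ω v) (hcv : Convex ℝ Ω) {x : En n} (hx : x ∈ Ω) :
    ContDiffAt ℝ 1 (gi Ω v) (H402.grad v x) ∧ map (H402.grad v) (𝓝 x) = 𝓝 (H402.grad v x) := by
  have h2 : ContDiffAt ℝ 2 v x := (h.contDiffAt hx).of_le (by norm_cast)
  have hd : (Matrix.toEuclideanLin (hess v x).transpose).toContinuousLinearMap.det ≠ 0 := by
    rw [H402.det_toEuclideanLin, Matrix.det_transpose]
    exact (h.pos x hx).det_pos.ne'
  have hf' : HasFDerivAt (H402.grad v)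
      ((ContinuousLinearMap.toContinuousLinearEquivOfDetNeZero _ hd : En n ≃L[ℝ] En n) :
        En n →L[ℝ] En n) x := by
    rw [ContinuousLinearMap.coe_toContinuousLinearEquivOfDetNeZero]
    exact H402.hasFDerivAt_grad h2
  have hs := (contDiffAt_grad h hx).hasStrictFDerivAt' hf' one_ne_zero
  refine ⟨((contDiffAt_grad h hx).to_localInverse hf' one_ne_zero).congr_of_eventuallyEq ?_,
    hs.map_nhds_eq_of_equiv⟩
  exact hs.localInverse_unique ((h.op.eventually_mem hx).mono fun y hy => gi_grad h hcv hy)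

theorem isOpen_grad_image (h : SC Ω v) (hcv : Convex ℝ Ω) {S : Set (En n)} (hS : IsOpen S)
    (hSΩ : S ⊆ Ω) : IsOpen (H402.grad v '' S) := by
  rw [isOpen_iff_mem_nhds]
  rintro _ ⟨x, hx, rfl⟩
  rw [← (local_inv h hcv (hSΩ hx)).2]
  exact image_mem_map (hS.mem_nhds hx)

theorem gi_mem (h : SC Ω v) (hcv : Convex ℝ Ω) {S : Set (En n)} (hSΩ : S ⊆ Ω) {p : En n}
    (hp : p ∈ H402.grad v '' S) : gi Ω v p ∈ S ∧ H402.grad v (gi Ω v p) = p := by
  obtain ⟨x, hx, rfl⟩ := hp
  rw [gi_grad h hcv (hSΩ hx)]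
  exact ⟨hx, rfl⟩

theorem contDiffOn_gi (h : SC Ω v) (hcv : Convex ℝ Ω) :
    ContDiffOn ℝ 1 (gi Ω v) (H402.grad v '' Ω) := by
  rintro _ ⟨x, hx, rfl⟩
  exact (local_inv h hcv hx).1.contDiffWithinAt

theorem fderiv_eq_inner (v : En n → ℝ) (x w : En n) :
    fderiv ℝ v x w = ⟪H402.grad v x, w⟫_ℝ := by
  rw [← sum_pd_eq, PiLp.inner_apply]
  refine Finset.sum_congr rfl fun i _ => ?_
  simp [H402.grad, mul_comm]

theorem young3 {a b c D Y : ℝ} (ha : 0 < a) (hc : 0 < c) (hD : 0 < D) (hbY : 0 ≤ b * Y)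
    (h : a ^ (1 / ((n : ℝ) + 2)) * b * c ^ (((n : ℝ) + 1) / ((n : ℝ) + 2)) = 1) :
    Real.sqrt (D ^ (-1 / ((n : ℝ) + 2)) * Y) ≤ a * D⁻¹ + b * Y + c := by
  have hN : (0 : ℝ) < (n : ℝ) + 2 := by positivity
  have h0 : 0 < a * D⁻¹ := by positivity
  set M := a * D⁻¹ + b * Y + c with hM
  have hM0 : 0 < M := by positivity
  refine Real.sqrt_le_iff.2 ⟨hM0.le, ?_⟩
  have e1 : D ^ (-1 / ((n : ℝ) + 2)) * Y =
      (a * D⁻¹) ^ (1 / ((n : ℝ) + 2)) * (b * Y) * c ^ (((n : ℝ) + 1) / ((n : ℝ) + 2)) := by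
    rw [Real.mul_rpow ha.le (by positivity), Real.inv_rpow hD.le, neg_div, Real.rpow_neg hD.le]
    linear_combination (-((D ^ (1 / ((n : ℝ) + 2)))⁻¹ * Y)) * h
  have e2 : M ^ 2 = M ^ (1 / ((n : ℝ) + 2)) * M * M ^ (((n : ℝ) + 1) / ((n : ℝ) + 2)) := by
    rw [mul_right_comm, ← Real.rpow_add hM0,
      show 1 / ((n : ℝ) + 2) + ((n : ℝ) + 1) / ((n : ℝ) + 2) = 1 by field_simp; ring,
      Real.rpow_one, sq]
  rw [e1, e2]
  have h1 : a * D⁻¹ ≤ M := by linarith
  have h2 : b * Y ≤ M := by linarith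
  have h3 : c ≤ M := by linarith
  gcongr

/-- the preimage of a line under the gradient map -/
noncomputable def ray (Ω : Set (En n)) (v : En n → ℝ) (b d : En n) (t : ℝ) : En n :=
  gi Ω v (b + t • d)

theorem contDiffOn_ray (h : SC Ω v) (hcv : Convex ℝ Ω) {J : Set ℝ} {b d : En n}
    (hin : ∀ t ∈ J, b + t • d ∈ H402.grad v '' Ω) : ContDiffOn ℝ 1 (ray Ω v b d) J :=
  (contDiffOn_gi h hcv).comp (by fun_prop) hin

theorem ray_form (h : SC Ω v) (hcv : Convex ℝ Ω) {J : Set ℝ} (hJ : IsOpen J) {b d : En n}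
    (hin : ∀ t ∈ J, b + t • d ∈ H402.grad v '' Ω) {t : ℝ} (ht : t ∈ J) :
    ∑ i, ∑ j, hess v (ray Ω v b d t) i j * deriv (ray Ω v b d) t i * deriv (ray Ω v b d) t j =
      ⟪d, deriv (ray Ω v b d) t⟫_ℝ := by
  set γ := ray Ω v b d with hγ
  have h1 : HasDerivAt γ (deriv γ t) t :=
    (((contDiffOn_ray h hcv hin).contDiffAt (hJ.mem_nhds ht)).differentiableAt
      one_ne_zero).hasDerivAt
  have hx : γ t ∈ Ω := (gi_mem h hcv subset_rfl (hin t ht)).1
  have h2 := (H402.hasFDerivAt_grad ((h.contDiffAt hx).of_le (by norm_cast))).comp_hasDerivAt t h1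
  have h3 : HasDerivAt (H402.grad v ∘ γ) d t := by
    have h4 : HasDerivAt (fun t : ℝ => b + t • d) d t := by
      simpa using ((hasDerivAt_id t).smul_const d).const_add b
    refine h4.congr_of_eventuallyEq ?_
    filter_upwards [hJ.mem_nhds ht] with s hs
    exact (gi_mem h hcv subset_rfl (hin s hs)).2
  have h5 := h2.unique h3
  rw [← h5, PiLp.inner_apply, Finset.sum_comm]
  refine Finset.sum_congr rfl fun j _ => ?_
  simp [Matrix.toLpLin_apply, Matrix.mulVec, dotProduct, Finset.mul_sum, mul_comm, mul_left_comm]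

/-- **The ray lemma.** -/
theorem ray_converges (h : SC Ω v) (hcv : Convex ℝ Ω) (hA : AffineComplete Ω v) {J : Set ℝ}
    (hJ : IsOpen J) (hJc : OrdConnected J) {b d : En n}
    (hin : ∀ t ∈ J, b + t • d ∈ H402.grad v '' Ω) {w1 w2 w3 G : ℝ → ℝ} {B : ℝ}
    (h1 : ∀ t ∈ J, 0 < w1 t) (h2 : ∀ t ∈ J, 0 < w2 t) (h3 : ∀ t ∈ J, 0 < w3 t)
    (hw : ∀ t ∈ J, w1 t ^ (1 / ((n : ℝ) + 2)) * w2 t *
      w3 t ^ (((n : ℝ) + 1) / ((n : ℝ) + 2)) = 1)
    (hI1 : IntegrableOn (fun t => w1 t * (dt v (ray Ω v b d t))⁻¹) J) (hI3 : IntegrableOn w3 J)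
    (hw2 : ContinuousOn w2 J)
    (hG : ∀ t ∈ J, HasDerivAt G (w2 t * ⟪d, deriv (ray Ω v b d) t⟫_ℝ) t)
    (hGB : ∀ t ∈ J, |G t| ≤ B) {t : ℕ → ℝ} (ht : ∀ k, t k ∈ J) (hm : Monotone t ∨ Antitone t) :
    ∃ y ∈ Ω, Tendsto (fun k => ray Ω v b d (t k)) atTop (𝓝 y) := by
  set γ := ray Ω v b d with hγ
  have hγd := contDiffOn_ray h hcv hin
  have hγΩ : ∀ t ∈ J, γ t ∈ Ω := fun t ht => (gi_mem h hcv subset_rfl (hin t ht)).1
  set W : ℝ → ℝ := fun t => w1 t * (dt v (γ t))⁻¹ + w3 t with hW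
  have hWI : IntegrableOn W J := hI1.add hI3
  have hW0 : ∀ t ∈ J, 0 ≤ W t := fun t ht => by
    have := h1 t ht
    have := h3 t ht
    have := h.dt_pos (hγΩ t ht)
    positivity
  refine converge h hcv hA hJ hJc hγd hγΩ (B := (∫ t in J, W t) + 2 * B) ?_ ht hm
  intro s hs t ht hst
  have hsub : uIcc s t ⊆ J := hJc.uIcc_subset hs ht
  have hYc : ContinuousOn (fun t => w2 t * ⟪d, deriv γ t⟫_ℝ) J :=
    hw2.mul (continuousOn_const.inner (hγd.continuousOn_deriv_of_isOpen hJ le_rfl))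
  have hYi : IntervalIntegrable (fun t => w2 t * ⟪d, deriv γ t⟫_ℝ) volume s t :=
    (hYc.mono hsub).intervalIntegrable
  have hWi : IntervalIntegrable W volume s t := (hWI.mono_set hsub).intervalIntegrable
  have e1 := intervalIntegral.integral_eq_sub_of_hasDerivAt (fun x hx => hG x (hsub hx)) hYi
  have e2 : ∫ x in s..t, W x ≤ ∫ x in J, W x := by
    rw [intervalIntegral.integral_of_le hst]
    refine setIntegral_mono_set hWI ((ae_restrict_iff' hJ.measurableSet).2
      (Eventually.of_forall hW0)) (LE.le.eventuallyLE fun x hx => hsub ?_)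
    rw [uIcc_of_le hst]
    exact Ioc_subset_Icc_self hx
  have e3 : ∫ x in s..t, spd v γ x ≤ ∫ x in s..t, (W x + w2 x * ⟪d, deriv γ x⟫_ℝ) := by
    refine intervalIntegral.integral_mono_on hst
      ((continuousOn_spd h hJ hγd hγΩ).mono hsub).intervalIntegrable (hWi.add hYi) fun x hx => ?_
    have hxJ : x ∈ J := hsub (by rwa [uIcc_of_le hst])
    have hf := ray_form h hcv hJ hin hxJ
    have hD := h.dt_pos (hγΩ x hxJ)
    have hY0 : 0 ≤ ⟪d, deriv γ x⟫_ℝ := by
      have h4 := affMetric_nonneg_at (h.pos _ (hγΩ x hxJ)) (deriv γ x)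
      rw [affMetric, hf] at h4
      exact nonneg_of_mul_nonneg_right h4 (Real.rpow_pos_of_pos hD _) |> fun h => h
    have h5 := young3 (h1 x hxJ) (h3 x hxJ) hD (mul_nonneg (h2 x hxJ).le hY0) (hw x hxJ)
    rw [spd, affMetric, hf]
    simp only [hW]
    refine le_trans h5 (le_of_eq ?_)
    ring
  rw [intervalIntegral.integral_add hWi hYi, e1] at e3
  linarith [(abs_le.1 (hGB s hs)).1, (abs_le.1 (hGB t ht)).2]

end Vale.Agent.N252
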