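import Vale.Agent.N252.Aff1

/-! # Affine completeness implies Euclidean completeness (graphs over convex domains) -/

open MeasureTheory Filter Topology Set
open scoped ContDiff ENNReal InnerProductSpace

namespace Vale.Agent.N252

open Vale.Agent.P252 Vale.Agent.P252.R

variable {n : ℕ} {Ω : Set (En n)} {v : En n → ℝ}

/-! ### averaging over families of rays -/

theorem exists_finite {E : Set (En n)} (hE : MeasurableSet E) (h0 : volume E ≠ 0)
    {F : En n → ℝ≥0∞} (hF : ∫⁻ w in E, F w ≠ ⊤) : ∃ w ∈ E, F w < ⊤ := by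
  by_contra hcon
  push Not at hcon
  refine hF (top_unique ?_)
  calc (⊤ : ℝ≥0∞) = ∫⁻ _ in E, ⊤ := by rw [setLIntegral_const, ENNReal.top_mul h0]
    _ ≤ ∫⁻ w in E, F w := setLIntegral_mono' hE hcon

theorem avg_cone {Φ : En n → ℝ≥0∞} (hΦ : Measurable Φ) (hfin : ∫⁻ p, Φ p ≠ ⊤) (q₀ q : En n)
    {ρ : ℝ} (hρ : 0 < ρ) : ∃ d ∈ Metric.ball q ρ,
      ∫⁻ t in Ioo (0 : ℝ) 1, ENNReal.ofReal (t ^ n) * Φ (q₀ + t • d) < ⊤ := by
  refine exists_finite measurableSet_ball (Metric.measure_ball_pos _ _ hρ).ne' ?_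
  refine ne_top_of_le_ne_top ?_ (setLIntegral_le_lintegral _ _)
  rw [lintegral_lintegral_swap (Measurable.aemeasurable (by
    exact ((measurable_snd.pow_const n).ennreal_ofReal).mul
      (hΦ.comp (measurable_const.add (measurable_snd.smul measurable_fst)))))]
  have h1 : ∀ t ∈ Ioo (0 : ℝ) 1,
      ∫⁻ d : En n, ENNReal.ofReal (t ^ n) * Φ (q₀ + t • d) = ∫⁻ p, Φ p := by
    intro t ht
    have ht0 := ht.1
    have h2 : Measurable fun p : En n => Φ (q₀ + p) := hΦ.comp (measurable_const_add q₀)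
    rw [lintegral_const_mul' _ _ ENNReal.ofReal_ne_top,
      ← lintegral_map h2 (measurable_const_smul t), Measure.map_addHaar_smul _ ht0.ne',
      lintegral_smul_measure, lintegral_add_left_eq_self, finrank_euclideanSpace_fin,
      smul_eq_mul, ← mul_assoc, ← ENNReal.ofReal_mul (by positivity),
      abs_of_pos (by positivity), mul_inv_cancel₀ (by positivity), ENNReal.ofReal_one, one_mul]
  rw [setLIntegral_congr_fun measurableSet_Ioo h1, setLIntegral_const]
  exact ENNReal.mul_ne_top hfin measure_Ioo_lt_top.ne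

theorem avg_cyl {Φ : En n → ℝ≥0∞} (hΦ : Measurable Φ) (hfin : ∫⁻ p, Φ p ≠ ⊤) {q : En n}
    (hq : q ≠ 0) {ε : ℝ} (hε : 0 < ε) : ∃ e ∈ Metric.ball (0 : En n) ε,
      ∫⁻ s in Ioi (1 : ℝ), Φ (e + s • q) < ⊤ := by
  refine exists_finite measurableSet_ball (Metric.measure_ball_pos _ _ hε).ne' ?_
  have hq0 : 0 < ‖q‖ := norm_pos_iff.2 hq
  set χ : En n → ℝ≥0∞ := (Metric.ball (0 : En n) ε).indicator 1 with hχ
  have hχm : Measurable χ := measurable_one.indicator measurableSet_ball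
  have h1 : ∫⁻ e in Metric.ball (0 : En n) ε, ∫⁻ s in Ioi (1 : ℝ), Φ (e + s • q) ≤
      ∫⁻ e : En n, ∫⁻ s : ℝ, χ e * Φ (e + s • q) := by
    rw [← lintegral_indicator measurableSet_ball]
    refine lintegral_mono fun e => ?_
    by_cases he : e ∈ Metric.ball (0 : En n) ε
    · simp only [hχ, indicator_of_mem he, Pi.one_apply, one_mul]
      exact setLIntegral_le_lintegral _ _
    · simp [indicator_of_notMem he]
  refine ne_top_of_le_ne_top ?_ h1
  rw [lintegral_lintegral_swap (Measurable.aemeasurable (by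
    exact (hχm.comp measurable_fst).mul
      (hΦ.comp (measurable_fst.add (measurable_snd.smul measurable_const)))))]
  have h2 : ∀ s : ℝ, ∫⁻ e : En n, χ e * Φ (e + s • q) = ∫⁻ p : En n, χ (p - s • q) * Φ p := by
    intro s
    rw [← lintegral_add_right_eq_self (fun p : En n => χ (p - s • q) * Φ p) (s • q)]
    simp only [add_sub_cancel_right]
  simp only [h2]
  rw [lintegral_lintegral_swap (Measurable.aemeasurable (by
    exact (hχm.comp (measurable_snd.sub (measurable_fst.smul measurable_const))).mul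
      (hΦ.comp measurable_snd)))]
  have h3 : ∀ p : En n, ∫⁻ s : ℝ, χ (p - s • q) * Φ p ≤ ENNReal.ofReal (2 * ε / ‖q‖) * Φ p := by
    intro p
    have hm : Measurable fun s : ℝ => χ (p - s • q) :=
      hχm.comp (measurable_const.sub (measurable_id.smul measurable_const))
    rw [lintegral_mul_const _ hm]
    refine mul_le_mul_left ?_ _
    have h4 : ∀ s : ℝ, χ (p - s • q) =
        {s : ℝ | p - s • q ∈ Metric.ball (0 : En n) ε}.indicator 1 s := fun s => rfl
    simp only [h4]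
    refine (lintegral_indicator_one_le _).trans ((Real.volume_le_diam _).trans
      (Metric.ediam_le_of_forall_dist_le fun s hs t ht => ?_))
    rw [mem_ofPred_eq, mem_ball_zero_iff] at hs ht
    rw [le_div_iff₀ hq0, Real.dist_eq, ← Real.norm_eq_abs, ← norm_smul]
    have h5 : (s - t) • q = (p - t • q) - (p - s • q) := by rw [sub_smul]; abel
    rw [h5]
    linarith [norm_sub_le (p - t • q) (p - s • q)]
  refine ne_top_of_le_ne_top ?_ (lintegral_mono h3)
  rw [lintegral_const_mul _ hΦ]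
  exact ENNReal.mul_ne_top ENNReal.ofReal_ne_top hfin

open Classical in
/-- the density of the inverse gradient map on the gradient image of `S` -/
noncomputable def phi (Ω : Set (En n)) (v : En n → ℝ) (S : Set (En n)) : En n → ℝ≥0∞ :=
  (H402.grad v '' S).piecewise (fun p => ENNReal.ofReal (dt v (gi Ω v p))⁻¹) 0

theorem continuousOn_dtinv (h : SC Ω v) (hcv : Convex ℝ Ω) :
    ContinuousOn (fun p => (dt v (gi Ω v p))⁻¹) (H402.grad v '' Ω) :=
  ((H651.continuousOn_dt h).comp (contDiffOn_gi h hcv).continuousOn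
    fun _ hp => (gi_mem h hcv subset_rfl hp).1).inv₀
    fun _ hp => (h.dt_pos (gi_mem h hcv subset_rfl hp).1).ne'

theorem phi_spec (h : SC Ω v) (hcv : Convex ℝ Ω) {S : Set (En n)} (hS : IsOpen S) (hSΩ : S ⊆ Ω)
    (hfin : volume S ≠ ⊤) : Measurable (phi Ω v S) ∧ ∫⁻ p, phi Ω v S p ≠ ⊤ := by
  classical
  have hA := (isOpen_grad_image h hcv hS hSΩ).measurableSet
  refine ⟨ContinuousOn.measurable_piecewise (ENNReal.continuous_ofReal.comp_continuousOn
    ((continuousOn_dtinv h hcv).mono (image_mono hSΩ))) continuousOn_const hA, ?_⟩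
  have h1 : phi Ω v S = (H402.grad v '' S).indicator
      (fun p => ENNReal.ofReal (dt v (gi Ω v p))⁻¹) := by
    rw [phi, piecewise_eq_indicator]
  rw [h1, lintegral_indicator hA, lintegral_grad h hcv hS.measurableSet hSΩ]
  have h2 : ∀ x ∈ S, ENNReal.ofReal (dt v x) *
      ENNReal.ofReal (dt v (gi Ω v (H402.grad v x)))⁻¹ = 1 := by
    intro x hx
    have := h.dt_pos (hSΩ hx)
    rw [gi_grad h hcv (hSΩ hx), ← ENNReal.ofReal_mul this.le, mul_inv_cancel₀ this.ne',
      ENNReal.ofReal_one]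
  rw [setLIntegral_congr_fun hS.measurableSet h2, setLIntegral_const, one_mul]
  exact hfin

theorem integrableOn_ray (h : SC Ω v) (hcv : Convex ℝ Ω) {S : Set (En n)} (hSΩ : S ⊆ Ω)
    {J : Set ℝ} (hJ : IsOpen J) {b d : En n} (hin : ∀ t ∈ J, b + t • d ∈ H402.grad v '' S)
    {w : ℝ → ℝ} (hw : ContinuousOn w J) (hw0 : ∀ t ∈ J, 0 < w t)
    (hfin : ∫⁻ t in J, ENNReal.ofReal (w t) * phi Ω v S (b + t • d) < ⊤) :
    IntegrableOn (fun t => w t * (dt v (ray Ω v b d t))⁻¹) J := by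
  classical
  have hc : ContinuousOn (fun t => w t * (dt v (ray Ω v b d t))⁻¹) J :=
    hw.mul ((continuousOn_dtinv h hcv).comp (f := fun t : ℝ => b + t • d) (by fun_prop)
      fun t ht => image_mono hSΩ (hin t ht))
  refine ⟨hc.aestronglyMeasurable hJ.measurableSet, (hasFiniteIntegral_iff_ofReal
    ((ae_restrict_iff' hJ.measurableSet).2 (Eventually.of_forall fun t ht => ?_))).2 ?_⟩
  · have h1 := h.dt_pos (hSΩ (gi_mem h hcv hSΩ (hin t ht)).1)
    exact mul_nonneg (hw0 t ht).le (inv_nonneg.2 h1.le)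
  · refine lt_of_eq_of_lt (setLIntegral_congr_fun hJ.measurableSet fun t ht => ?_) hfin
    rw [phi, piecewise_eq_of_mem _ _ _ (hin t ht), ENNReal.ofReal_mul (hw0 t ht).le]
    rfl

theorem tendsto_grad (h : SC Ω v) {x : ℕ → En n} {y : En n} (hy : y ∈ Ω)
    (hx : Tendsto x atTop (𝓝 y)) :
    Tendsto (fun k => H402.grad v (x k)) atTop (𝓝 (H402.grad v y)) :=
  (contDiffAt_grad h hy).continuousAt.tendsto.comp hx

/-- a cone of segments inside the gradient image -/
theorem case_cone (h : SC Ω v) (hcv : Convex ℝ Ω) (hA : AffineComplete Ω v) {S : Set (En n)}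
    (hS : IsOpen S) (hSΩ : S ⊆ Ω) {R : ℝ} (hR : ∀ x ∈ S, ‖x‖ ≤ R) (q₀ q : En n) {ρ : ℝ}
    (hρ : 0 < ρ) (hin : ∀ d ∈ Metric.ball q ρ, ∀ t ∈ Ioo (0 : ℝ) 1,
      q₀ + t • d ∈ H402.grad v '' S) : ∃ y ∈ Ω, H402.grad v y = q₀ ∧ y ∈ closure S := by
  have hfin : volume S ≠ ⊤ := (isBounded_iff_forall_norm_le.2 ⟨R, hR⟩).measure_lt_top.ne
  obtain ⟨hm, hf⟩ := phi_spec h hcv hS hSΩ hfin
  obtain ⟨d, hd, hdf⟩ := avg_cone hm hf q₀ q hρ
  have hin' : ∀ t ∈ Ioo (0 : ℝ) 1, q₀ + t • d ∈ H402.grad v '' Ω :=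
    fun t ht => image_mono hSΩ (hin d hd t ht)
  have hn0 : (0 : ℝ) ≤ n := Nat.cast_nonneg n
  have htk : ∀ k : ℕ, 1 / ((k : ℝ) + 2) ∈ Ioo (0 : ℝ) 1 := fun k =>
    ⟨by positivity, by
      rw [div_lt_one (by positivity)]
      linarith [(Nat.cast_nonneg k : (0 : ℝ) ≤ k)]⟩
  obtain ⟨y, hy, hlim⟩ := ray_converges h hcv hA isOpen_Ioo ordConnected_Ioo hin'
    (w1 := fun t => t ^ n) (w2 := fun _ => 1) (w3 := fun t => t ^ (-(n : ℝ) / ((n : ℝ) + 1)))
    (G := fun t => ⟪d, ray Ω v q₀ d t⟫_ℝ) (B := ‖d‖ * R)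
    (fun t ht => pow_pos ht.1 n) (fun _ _ => one_pos) (fun t ht => Real.rpow_pos_of_pos ht.1 _)
    (fun t ht => by
      rw [mul_one, ← Real.rpow_natCast, ← Real.rpow_mul ht.1.le, ← Real.rpow_mul ht.1.le,
        ← Real.rpow_add ht.1]
      convert Real.rpow_zero t using 2
      field_simp
      ring)
    (integrableOn_ray h hcv hSΩ isOpen_Ioo (hin d hd) (by fun_prop) (fun t ht => pow_pos ht.1 n)
      hdf)
    (((intervalIntegrable_iff_integrableOn_Ioo_of_le zero_le_one).1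
      (intervalIntegral.intervalIntegrable_rpow' (by
        rw [neg_div, neg_lt_neg_iff, div_lt_one (by positivity)]; linarith))))
    continuousOn_const
    (fun t ht => by
      have h1 := (((contDiffOn_ray h hcv hin').contDiffAt (isOpen_Ioo.mem_nhds ht)).differentiableAt
        one_ne_zero).hasDerivAt
      rw [one_mul]
      exact (innerSL ℝ d).hasFDerivAt.comp_hasDerivAt t h1)
    (fun t ht => (abs_real_inner_le_norm _ _).trans (mul_le_mul_of_nonneg_left
      (hR _ (gi_mem h hcv hSΩ (hin d hd t ht)).1) (norm_nonneg _)))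
    (t := fun k => 1 / ((k : ℝ) + 2)) htk (Or.inr fun i j hij => by
      have : (i : ℝ) ≤ j := by exact_mod_cast hij
      exact one_div_le_one_div_of_le (by positivity) (by linarith))
  refine ⟨y, hy, ?_, mem_closure_of_tendsto hlim (Eventually.of_forall fun k =>
    (gi_mem h hcv hSΩ (hin d hd _ (htk k))).1)⟩
  have h1 := tendsto_grad h hy hlim
  have h2 : Tendsto (fun k : ℕ => q₀ + (1 / ((k : ℝ) + 2)) • d) atTop (𝓝 q₀) := by
    have h3 : Tendsto (fun k : ℕ => 1 / ((k : ℝ) + 2)) atTop (𝓝 0) :=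
      tendsto_const_nhds.div_atTop (tendsto_atTop_add_const_right _ _ tendsto_natCast_atTop_atTop)
    simpa using (h3.smul_const d).const_add q₀
  refine tendsto_nhds_unique h1 (h2.congr fun k => ?_)
  exact (gi_mem h hcv hSΩ (hin d hd _ (htk k))).2.symm

/-- a cylinder of rays inside the gradient image -/
theorem case_cyl (h : SC Ω v) (hcv : Convex ℝ Ω) (hA : AffineComplete Ω v) {S : Set (En n)}
    (hS : IsOpen S) (hSΩ : S ⊆ Ω) {R c : ℝ} (hR : ∀ x ∈ S, ‖x‖ ≤ R) (hc : ∀ x ∈ S, |v x| ≤ c)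
    {q : En n} (hq : q ≠ 0) {ε : ℝ} (hε : 0 < ε)
    (hin : ∀ e ∈ Metric.ball (0 : En n) ε, ∀ s ∈ Ioi (1 : ℝ), e + s • q ∈ H402.grad v '' S) :
    False := by
  have hfin : volume S ≠ ⊤ := (isBounded_iff_forall_norm_le.2 ⟨R, hR⟩).measure_lt_top.ne
  obtain ⟨hm, hf⟩ := phi_spec h hcv hS hSΩ hfin
  obtain ⟨e, he, hef⟩ := avg_cyl hm hf hq hε
  have hin' : ∀ t ∈ Ioi (1 : ℝ), e + t • q ∈ H402.grad v '' Ω :=
    fun t ht => image_mono hSΩ (hin e he t ht)
  have hn0 : (0 : ℝ) ≤ n := Nat.cast_nonneg n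
  have hpos : ∀ t ∈ Ioi (1 : ℝ), 0 < t := fun t ht => zero_lt_one.trans ht
  have htk : ∀ k : ℕ, (k : ℝ) + 2 ∈ Ioi (1 : ℝ) := fun k => by
    rw [mem_Ioi]; linarith [(Nat.cast_nonneg k : (0 : ℝ) ≤ k)]
  obtain ⟨y, hy, hlim⟩ := ray_converges h hcv hA isOpen_Ioi ordConnected_Ioi hin'
    (w1 := fun _ => 1) (w2 := fun t => t)
    (w3 := fun t => t ^ (-((n : ℝ) + 2) / ((n : ℝ) + 1)))
    (G := fun t => v (ray Ω v e q t) - ⟪e, ray Ω v e q t⟫_ℝ) (B := c + ‖e‖ * R)
    (fun _ _ => one_pos) hpos (fun t ht => Real.rpow_pos_of_pos (hpos t ht) _)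
    (fun t ht => by
      rw [Real.one_rpow, one_mul, ← Real.rpow_mul (hpos t ht).le,
        show -((n : ℝ) + 2) / ((n : ℝ) + 1) * (((n : ℝ) + 1) / ((n : ℝ) + 2)) = -1 by field_simp,
        Real.rpow_neg_one, mul_inv_cancel₀ (hpos t ht).ne'])
    (integrableOn_ray h hcv hSΩ isOpen_Ioi (hin e he) continuousOn_const (fun _ _ => one_pos)
      (by simpa using hef))
    (integrableOn_Ioi_rpow_of_lt (by
      rw [neg_div, neg_lt_neg_iff, one_lt_div (by positivity)]; linarith) one_pos)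
    continuousOn_id
    (fun t ht => by
      have h1 := (((contDiffOn_ray h hcv hin').contDiffAt (isOpen_Ioi.mem_nhds ht)).differentiableAt
        one_ne_zero).hasDerivAt
      have h2 := gi_mem h hcv subset_rfl (hin' t ht)
      have h3 := (h.diffAt h2.1).hasFDerivAt.comp_hasDerivAt t h1
      have h4 := (innerSL ℝ e).hasFDerivAt.comp_hasDerivAt t h1
      refine (h3.sub h4).congr_deriv ?_
      rw [fderiv_eq_inner, h2.2, inner_add_left, real_inner_smul_left, innerSL_apply_apply]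
      ring)
    (fun t ht => by
      have h1 := (gi_mem h hcv hSΩ (hin e he t ht)).1
      refine (abs_sub _ _).trans (add_le_add (hc _ h1) ?_)
      exact (abs_real_inner_le_norm _ _).trans (mul_le_mul_of_nonneg_left (hR _ h1)
        (norm_nonneg _)))
    (t := fun k => (k : ℝ) + 2) htk (Or.inl fun i j hij => by
      have : (i : ℝ) ≤ j := by exact_mod_cast hij
      simp only
      linarith)
  have h1 := (tendsto_grad h hy hlim).norm
  have h2 : Tendsto (fun k : ℕ => ((k : ℝ) + 2) * ‖q‖ + -‖e‖) atTop atTop :=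
    tendsto_atTop_add_const_right _ _ ((tendsto_atTop_add_const_right _ _
      tendsto_natCast_atTop_atTop).atTop_mul_const (norm_pos_iff.2 hq))
  refine not_tendsto_atTop_of_tendsto_nhds h1 (tendsto_atTop_mono (fun k => ?_) h2)
  have h3 : H402.grad v (ray Ω v e q ((k : ℝ) + 2)) = e + ((k : ℝ) + 2) • q :=
    (gi_mem h hcv subset_rfl (hin' _ (htk k))).2
  rw [h3]
  have h4 := norm_sub_le (e + ((k : ℝ) + 2) • q) e
  rw [add_sub_cancel_left, norm_smul, Real.norm_of_nonneg (by positivity)] at h4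
  linarith

/-! ### the geometry of the gradient image of a section -/

/-- slopes whose supporting plane stays below the top `z = c` of the cap over `S` -/
def slopes (v : En n → ℝ) (S : Set (En n)) (c : ℝ) : Set (En n) :=
  {q | ∃ η : ℝ, 0 < η ∧ ∃ x ∈ S, v x < c ∧ ∀ y ∈ S, v x + ⟪q, y - x⟫_ℝ + η ≤ c}

theorem isOpen_slopes {S : Set (En n)} {R c : ℝ} (hR : ∀ x ∈ S, ‖x‖ ≤ R) :
    IsOpen (slopes v S c) := by
  rw [Metric.isOpen_iff]
  rintro q ⟨η, hη, x, hx, hxc, h⟩
  have hR0 : 0 ≤ R := (norm_nonneg _).trans (hR x hx)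
  refine ⟨η / (4 * R + 1), by positivity, fun q' hq' => ⟨η / 2, by positivity, x, hx, hxc,
    fun y hy => ?_⟩⟩
  have h1 : ⟪q', y - x⟫_ℝ = ⟪q, y - x⟫_ℝ + ⟪q' - q, y - x⟫_ℝ := by rw [inner_sub_left]; ring
  have h2 := real_inner_le_norm (q' - q) (y - x)
  have h3 : ‖y - x‖ ≤ 2 * R := by linarith [norm_sub_le y x, hR x hx, hR y hy]
  rw [mem_ball_iff_norm, lt_div_iff₀ (by positivity)] at hq'
  have h4 := mul_le_mul_of_nonneg_left h3 (norm_nonneg (q' - q))
  have h5 := norm_nonneg (q' - q)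
  have h6 := h y hy
  nlinarith

theorem star_slopes {S : Set (En n)} {c : ℝ} : StarConvex ℝ 0 (slopes v S c) := by
  rintro q ⟨η, hη, x, hx, hxc, h⟩ a b ha hb hab
  refine ⟨min η (c - v x), lt_min hη (by linarith), x, hx, hxc, fun y hy => ?_⟩
  rw [smul_zero, zero_add, real_inner_smul_left]
  have h1 := mul_le_mul_of_nonneg_left (h y hy) hb
  have h2 := mul_le_mul_of_nonneg_left (min_le_left η (c - v x)) hb
  have h3 := mul_le_mul_of_nonneg_left (min_le_right η (c - v x)) ha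
  have h4 : a = 1 - b := by linarith
  subst h4
  nlinarith

theorem grad_mem_slopes (h : SC Ω v) (hcv : Convex ℝ Ω) {c : ℝ} {x : En n} (hx : x ∈ Ω)
    (hxc : v x < c) : H402.grad v x ∈ slopes v {x | x ∈ Ω ∧ v x < c} c := by
  set q := H402.grad v x with hq
  set r' := (c - v x) / (2 * (‖q‖ + 1)) with hr'
  have hg : 0 < c - v x := by linarith
  have hr'0 : 0 < r' := by positivity
  obtain ⟨r, hr, m, hm, hball, hgrow⟩ := tilt_growth (Ω := Ω ∩ Metric.ball x r')
    (h.op.inter Metric.isOpen_ball) (hcv.inter (convex_ball _ _)) (h.sm.mono inter_subset_left)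
    (fun y hy => h.pos y hy.1) (p := x) ⟨hx, Metric.mem_ball_self hr'0⟩
  refine ⟨min ((c - v x) / 2) (m * r), lt_min (by positivity) (by positivity), x, ⟨hx, hxc⟩, hxc,
    fun y hy => ?_⟩
  have hb : brg v x y = v y - v x - ⟪q, y - x⟫_ℝ := by
    rw [brg_eq_tilt, tilt, fderiv_eq_inner]
  rcases le_total ‖y - x‖ r' with h1 | h1
  · have h2 := real_inner_le_norm q (y - x)
    have h3 : ‖q‖ * ‖y - x‖ ≤ (‖q‖ + 1) * r' :=
      mul_le_mul (by linarith) h1 (norm_nonneg _) (by positivity)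
    have h4 : (‖q‖ + 1) * r' = (c - v x) / 2 := by rw [hr']; field_simp
    linarith [min_le_left ((c - v x) / 2) (m * r)]
  · have hd : 0 < ‖y - x‖ := hr'0.trans_le h1
    have hs0 : 0 < r / ‖y - x‖ := by positivity
    have hz : dist (x + (r / ‖y - x‖) • (y - x)) x = r := by
      rw [dist_eq_norm, add_sub_cancel_left, norm_smul, Real.norm_of_nonneg hs0.le,
        div_mul_cancel₀ _ hd.ne']
    have hzm := hball (show x + (r / ‖y - x‖) • (y - x) ∈ Metric.closedBall x r from hz.le)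
    have hrr : r < r' := by
      have := hzm.2
      rwa [Metric.mem_ball, hz] at this
    have hs1 : r / ‖y - x‖ ≤ 1 := by rw [div_le_one hd]; linarith
    have h2 := hgrow _ hzm hz.ge
    rw [hz, ← brg_eq_tilt] at h2
    have h3 := (brg_segment_le h hcv hx hy.1 hs0.le hs1).2
    have h4 := mul_le_of_le_one_left (brg_nonneg h hcv hx hy.1) hs1
    linarith [min_le_right ((c - v x) / 2) (m * r), hy.2]

theorem mem_of_slopes (h : SC Ω v) (hcv : Convex ℝ Ω) {c : ℝ} {y : En n} (hy : y ∈ Ω)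
    (hcl : y ∈ closure {x | x ∈ Ω ∧ v x < c})
    (hq : H402.grad v y ∈ slopes v {x | x ∈ Ω ∧ v x < c} c) : v y < c := by
  obtain ⟨η, hη, x, hx, -, hxy⟩ := hq
  have h1 : v x + ⟪H402.grad v y, y - x⟫_ℝ + η ≤ c :=
    closure_minimal (t := {z | v x + ⟪H402.grad v y, z - x⟫_ℝ + η ≤ c}) hxy
      (isClosed_le (by fun_prop) continuous_const) hcl
  have h2 := tangent_le h.op hcv h.sm h.pos hy hx.1
  rw [fderiv_eq_inner, ← neg_sub y x, inner_neg_right] at h2
  linarith

/-- the core: no boundary point of `Ω` is a limit of a section -/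
theorem no_boundary (h : SC Ω v) (hcv : Convex ℝ Ω) (hA : AffineComplete Ω v) {R c : ℝ}
    (h0 : ∀ x ∈ Ω, 0 ≤ v x) (hR : ∀ x ∈ Ω, v x < c → ‖x‖ ≤ R) {x₀ : En n} (hx₀ : x₀ ∉ Ω)
    (happ : ∀ δ : ℝ, 0 < δ → ∃ x ∈ Ω, v x ≤ c - 1 ∧ ‖x₀ - x‖ < δ) : False := by
  set S := {x | x ∈ Ω ∧ v x < c} with hS
  have hSo : IsOpen S := isOpen_lt' h c
  have hSΩ : S ⊆ Ω := fun x hx => hx.1
  have hR' : ∀ x ∈ S, ‖x‖ ≤ R := fun x hx => hR x hx.1 hx.2
  set A := H402.grad v '' S with hAdef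
  set U := slopes v S c with hU
  have hAo : IsOpen A := isOpen_grad_image h hcv hSo hSΩ
  have hUo : IsOpen U := isOpen_slopes hR'
  obtain ⟨a, ha, hac, -⟩ := happ 1 one_pos
  have haS : a ∈ S := ⟨ha, by linarith⟩
  have hR0 : 0 ≤ R := (norm_nonneg _).trans (hR' a haS)
  have hU0 : (0 : En n) ∈ U := ⟨1, one_pos, a, haS, haS.2, fun y _ => by simp; linarith⟩
  by_cases hUA : U ⊆ A
  · obtain ⟨f, hf⟩ := geometric_hahn_banach_open_point hcv h.op hx₀
    set q := (InnerProductSpace.toDual ℝ (En n)).symm f with hq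
    have hqf : ∀ x, ⟪q, x⟫_ℝ = f x := fun x => InnerProductSpace.toDual_symm_apply
    have hq0 : q ≠ 0 := by
      intro h1
      have h2 := hf a ha
      rw [← hqf, ← hqf, h1, inner_zero_left, inner_zero_left] at h2
      exact lt_irrefl _ h2
    have hqn : 0 < ‖q‖ := norm_pos_iff.2 hq0
    refine case_cyl h hcv hA hSo hSΩ hR' (c := c)
      (fun x hx => by rw [abs_of_nonneg (h0 x hx.1)]; exact hx.2.le) hq0
      (show 0 < 1 / (6 * R + 1) by positivity) fun e he s hs => hUA ?_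
    have hs0 : 0 < s := zero_lt_one.trans hs
    obtain ⟨x, hx, hxc, hxd⟩ := happ (1 / (3 * (s * ‖q‖))) (by positivity)
    have hxS : x ∈ S := ⟨hx, by linarith⟩
    refine ⟨1 / 3, by norm_num, x, hxS, hxS.2, fun y hy => ?_⟩
    rw [inner_add_left, real_inner_smul_left]
    have h1 := real_inner_le_norm e (y - x)
    have h2 : ‖y - x‖ ≤ 2 * R := by linarith [norm_sub_le y x, hR' x hxS, hR' y hy]
    rw [mem_ball_zero_iff, lt_div_iff₀ (by positivity)] at he
    have h3 := mul_le_mul_of_nonneg_left h2 (norm_nonneg e)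
    have h4 : ⟪q, y - x⟫_ℝ ≤ ⟪q, x₀ - x⟫_ℝ := by
      rw [hqf, hqf, map_sub, map_sub]
      linarith [hf y hy.1]
    have h5 := real_inner_le_norm q (x₀ - x)
    rw [lt_div_iff₀ (by positivity)] at hxd
    have h6 := mul_le_mul_of_nonneg_left (h4.trans h5) hs0.le
    nlinarith [norm_nonneg e]
  · have hpc : IsPreconnected U := (star_slopes.isPathConnected hU0).isConnected.isPreconnected
    have hne : (U ∩ A).Nonempty :=
      ⟨_, grad_mem_slopes h hcv ha haS.2, mem_image_of_mem _ haS⟩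
    obtain ⟨b, ⟨hbc, hbU⟩, hbA⟩ :=
      not_subset.1 fun hh => hUA (hpc.subset_of_closure_inter_subset hAo hne hh)
    obtain ⟨ε, hε, hball⟩ := Metric.isOpen_iff.1 hUo b hbU
    obtain ⟨q₁, hq₁, hq₁b⟩ := Metric.mem_closure_iff.1 hbc (ε / 2) (by positivity)
    obtain ⟨q₀, hq₀, hq₀d⟩ := hAo.isClosed_compl.exists_infDist_eq_dist ⟨b, hbA⟩ q₁
    have hρ : 0 < dist q₁ q₀ := dist_pos.2 fun he => hq₀ (he ▸ hq₁)
    have hρb : dist q₁ q₀ ≤ dist q₁ b := hq₀d ▸ Metric.infDist_le_dist_of_mem hbA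
    have hq₀U : q₀ ∈ U := by
      refine hball ?_
      rw [Metric.mem_ball]
      have := dist_triangle_left q₀ b q₁
      rw [dist_comm b q₁] at hq₁b
      linarith
    obtain ⟨y, hy, hyq, hycl⟩ := case_cone h hcv hA hSo hSΩ hR' q₀ (q₁ - q₀) hρ (by
      intro d hd t ht
      refine Metric.ball_infDist_compl_subset (x := q₁) ?_
      rw [hq₀d, mem_ball_iff_norm]
      rw [mem_ball_iff_norm] at hd
      have e1 : q₀ + t • d - q₁ = t • (d - (q₁ - q₀)) - (1 - t) • (q₁ - q₀) := by module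
      have h1 := norm_sub_le (t • (d - (q₁ - q₀))) ((1 - t) • (q₁ - q₀))
      rw [norm_smul, norm_smul, Real.norm_of_nonneg ht.1.le,
        Real.norm_of_nonneg (by linarith [ht.2]), ← dist_eq_norm q₁ q₀] at h1
      rw [e1]
      nlinarith [mul_lt_mul_of_pos_left hd ht.1])
    exact hq₀ ⟨y, ⟨hy, mem_of_slopes h hcv hy hycl (hyq ▸ hq₀U)⟩, hyq⟩

theorem hess_brg {u : En n → ℝ} (h : SC Ω u) (a : En n) :
    SC Ω (brg u a) ∧ ∀ x ∈ Ω, hess (brg u a) x = hess u x := by
  have e : brg u a = tr u (ContinuousLinearEquiv.refl ℝ _) 0 1 (fun i => - pd i u a)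
      (-(u a) + ∑ i, pd i u a * a i) := by
    funext x
    simp only [tr, brg, mul_sub, Finset.sum_sub_distrib, ContinuousLinearEquiv.refl_apply,
      add_zero, one_mul, neg_mul, Finset.sum_neg_distrib]
    ring
  have hD : trD Ω (ContinuousLinearEquiv.refl ℝ _) 0 = Ω := by ext x; simp [trD]
  have hm : mT (ContinuousLinearEquiv.refl ℝ (En n)) = 1 := H474.linM_id
  refine ⟨?_, fun x hx => ?_⟩
  · rw [e]
    exact hD ▸ sc_tr h one_pos
  · rw [e, hess_tr h.op h.two (by simpa using hx), hm]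
    simp

theorem affDist_congr {u : En n → ℝ} (h : ∀ x ∈ Ω, hess v x = hess u x) :
    affDist Ω v = affDist Ω u := by
  have key : ∀ γ : ℝ → En n, (∀ t ∈ Icc (0 : ℝ) 1, γ t ∈ Ω) → affLength v γ = affLength u γ := by
    intro γ hγ
    refine intervalIntegral.integral_congr fun t ht => ?_
    rw [uIcc_of_le zero_le_one] at ht
    simp only [affMetric, h _ (hγ t ht)]
  funext x y
  unfold affDist
  congr 1
  ext L
  constructor
  · rintro ⟨γ, h1, h2, h3, h4, h5⟩
    exact ⟨γ, h1, h2, h3, h4, h5.trans (key γ h4)⟩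
  · rintro ⟨γ, h1, h2, h3, h4, h5⟩
    exact ⟨γ, h1, h2, h3, h4, h5.trans (key γ h4).symm⟩

/-- **An affine complete graph has a closed epigraph.** -/
theorem isClosed_epi_of_affineComplete {u : En n → ℝ} (h : SC Ω u) (hcv : Convex ℝ Ω)
    (hA : AffineComplete Ω u) : IsClosed (epi Ω u) := by
  rw [← closure_subset_iff_isClosed]
  rintro ⟨x₀, z₀⟩ hp
  by_cases hx₀ : x₀ ∈ Ω
  · refine ⟨hx₀, ?_⟩
    have hc : ContinuousAt (fun p : En n × ℝ => u p.1) (x₀, z₀) :=
      ContinuousAt.comp (f := fun p : En n × ℝ => p.1)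
        (h.sm.continuousOn.continuousAt (h.op.mem_nhds hx₀)) continuousAt_fst
    exact ContinuousWithinAt.closure_le hp hc.continuousWithinAt
      continuous_snd.continuousWithinAt fun p hp => hp.2
  · exfalso
    obtain ⟨⟨a, za⟩, ha, -⟩ := Metric.mem_closure_iff.1 hp 1 one_pos
    have ha : a ∈ Ω := ha.1
    obtain ⟨hv, hh⟩ := hess_brg h a
    obtain ⟨r, hr, m, hm, -, hgrow⟩ := tilt_growth h.op hcv h.sm h.pos ha
    set c := z₀ + 1 - u a + ‖fderiv ℝ u a‖ * (‖x₀ - a‖ + 1) + 1 with hc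
    refine no_boundary hv hcv (by unfold AffineComplete; rw [affDist_congr hh]; exact hA)
      (R := ‖a‖ + max r (c / m)) (c := c) (fun x hx => brg_nonneg h hcv ha hx)
      (fun x hx hxc => ?_) hx₀ fun δ hδ => ?_
    · have h1 : ‖x - a‖ ≤ max r (c / m) := by
        rw [← dist_eq_norm]
        rcases le_total r (dist x a) with h2 | h2
        · refine le_trans ?_ (le_max_right _ _)
          rw [le_div_iff₀ hm]
          have := hgrow x hx h2
          rw [← brg_eq_tilt] at this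
          linarith
        · exact h2.trans (le_max_left _ _)
      linarith [norm_le_insert' x a]
    · obtain ⟨⟨x, z⟩, hx, hd⟩ := Metric.mem_closure_iff.1 hp (min δ 1) (lt_min hδ one_pos)
      rw [Prod.dist_eq, max_lt_iff, lt_min_iff, lt_min_iff, dist_eq_norm, Real.dist_eq] at hd
      refine ⟨x, hx.1, ?_, hd.1.1⟩
      rw [brg_eq_tilt, tilt]
      have h1 := (fderiv ℝ u a).le_opNorm (x - a)
      have h2 : ‖x - a‖ ≤ ‖x₀ - a‖ + 1 := by
        have := norm_sub_le (x₀ - a) (x₀ - x)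
        rw [show x₀ - a - (x₀ - x) = x - a by abel] at this
        linarith [hd.1.2]
      have h3 := mul_le_mul_of_nonneg_left h2 (norm_nonneg (fderiv ℝ u a))
      rw [Real.norm_eq_abs] at h1
      have h4 : u x ≤ z := hx.2
      linarith [(abs_le.1 h1).1, (abs_lt.1 hd.2.2).1]

/-- **Affine complete implies Euclidean complete.** -/
theorem euclideanComplete_of_affineComplete {u : En n → ℝ} (h : SC Ω u) (hcv : Convex ℝ Ω)
    (hA : AffineComplete Ω u) : EuclideanComplete Ω u :=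
  euclideanComplete_of_proper h.op hcv h.sm fun _ =>
    isClosed_le_cont_of_epi (isClosed_epi_of_affineComplete h hcv hA) continuous_const

end Vale.Agent.N252
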