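import Vale.Agent.N252.Corner

/-! # Affine area of sections: the domain and the gradient of a complete graph are unbounded -/

open MeasureTheory Filter Topology Set
open scoped ContDiff ENNReal

namespace Vale.Agent.N252

open Vale.Agent.P252 Vale.Agent.P252.R

variable {n : ℕ} {Ω : Set (En n)} {v : En n → ℝ}

theorem young {D W : ℝ} (hD : 0 < D) (hW : 0 < W) :
    D ^ (1 / ((n : ℝ) + 2)) ≤ D * W ^ (-((n : ℝ) + 1)) + W := by
  have hN : (0 : ℝ) < (n : ℝ) + 2 := by positivity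
  have h0 : 0 ≤ D * W ^ (-((n : ℝ) + 1)) := by positivity
  rcases le_total D (W ^ ((n : ℝ) + 2)) with h | h
  · have h1 := Real.rpow_le_rpow hD.le h (show 0 ≤ 1 / ((n : ℝ) + 2) by positivity)
    rw [← Real.rpow_mul hW.le, mul_one_div_cancel hN.ne', Real.rpow_one] at h1
    linarith
  · have h1 := Real.rpow_le_rpow_of_nonpos (by positivity) h
      (show 1 / ((n : ℝ) + 2) - 1 ≤ 0 by
        rw [sub_nonpos, div_le_one hN]; linarith [(Nat.cast_nonneg n : (0 : ℝ) ≤ n)])
    rw [← Real.rpow_mul hW.le] at h1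
    have e1 : ((n : ℝ) + 2) * (1 / ((n : ℝ) + 2) - 1) = -((n : ℝ) + 1) := by field_simp; ring
    have e2 : D ^ (1 / ((n : ℝ) + 2)) = D * D ^ (1 / ((n : ℝ) + 2) - 1) := by
      rw [Real.rpow_sub_one hD.ne']; field_simp
    rw [e1] at h1
    rw [e2]
    have := mul_le_mul_of_nonneg_left h1 hD.le
    linarith

theorem injOn_grad (h : SC Ω v) (hcv : Convex ℝ Ω) : InjOn (H402.grad v) Ω := by
  intro x hx y hy hxy
  refine Vale.Agent.P252.fderiv_injOn h.op hcv h.sm h.pos hx hy ?_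
  ext w
  rw [← sum_pd_eq, ← sum_pd_eq]
  refine Finset.sum_congr rfl fun i _ => ?_
  have : (H402.grad v x) i = (H402.grad v y) i := by rw [hxy]
  have h1 : pd i v x = pd i v y := this
  rw [h1]

/-- change of variables `p = Dv(x)` -/
theorem lintegral_grad (h : SC Ω v) (hcv : Convex ℝ Ω) {G : Set (En n)} (hG : MeasurableSet G)
    (hGΩ : G ⊆ Ω) (F : En n → ℝ≥0∞) :
    ∫⁻ p in H402.grad v '' G, F p = ∫⁻ x in G, ENNReal.ofReal (dt v x) * F (H402.grad v x) := by
  have hcd : ∀ x ∈ Ω, ContDiffAt ℝ 2 v x := fun x hx =>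
    ((h.sm x hx).contDiffAt (h.op.mem_nhds hx)).of_le (by norm_cast)
  rw [lintegral_image_eq_lintegral_abs_det_fderiv_mul (volume : Measure (En n)) hG
    (f := H402.grad v)
    (f' := fun x => (Matrix.toEuclideanLin (hess v x).transpose).toContinuousLinearMap)
    (fun x hx => (H402.hasFDerivAt_grad (hcd x (hGΩ hx))).hasFDerivWithinAt)
    ((injOn_grad h hcv).mono hGΩ) F]
  refine setLIntegral_congr_fun hG fun x hx => ?_
  have hdpos : 0 < (hess v x).det := (h.pos x (hGΩ hx)).det_pos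
  simp only
  rw [H402.det_toEuclideanLin, Matrix.det_transpose, abs_of_pos hdpos]
  rfl

theorem isOpen_gt (h : SC Ω v) (t : ℝ) : IsOpen {x | x ∈ Ω ∧ t < v x} :=
  h.sm.continuousOn.isOpen_inter_preimage h.op isOpen_Ioi

theorem isOpen_lt' (h : SC Ω v) (t : ℝ) : IsOpen {x | x ∈ Ω ∧ v x < t} :=
  h.sm.continuousOn.isOpen_inter_preimage h.op isOpen_Iio

/-- the tail of a finite measure -/
theorem exists_tail (h : SC Ω v) (μ : Measure (En n)) (hμ : μ Ω ≠ ⊤) {δ : ℝ} (hδ : 0 < δ) :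
    ∃ t : ℝ, μ {x | x ∈ Ω ∧ t < v x} ≤ ENNReal.ofReal δ := by
  have h1 := tendsto_measure_iInter_atTop (μ := μ)
    (s := fun t : ℕ => {x | x ∈ Ω ∧ (t : ℝ) < v x})
    (fun t => (isOpen_gt h t).measurableSet.nullMeasurableSet)
    (fun s t hst x hx => ⟨hx.1, lt_of_le_of_lt (by exact_mod_cast hst) hx.2⟩)
    ⟨0, ne_top_of_le_ne_top hμ (measure_mono fun x hx => hx.1)⟩
  have h2 : (⋂ t : ℕ, {x | x ∈ Ω ∧ (t : ℝ) < v x}) = ∅ := by
    rw [eq_empty_iff_forall_notMem]
    intro x hx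
    obtain ⟨t, ht⟩ := exists_nat_gt (v x)
    exact lt_asymm ht (mem_iInter.1 hx t).2
  rw [h2, measure_empty] at h1
  obtain ⟨t, ht⟩ := (h1.eventually (gt_mem_nhds (ENNReal.ofReal_pos.2 hδ))).exists
  exact ⟨t, ht.le⟩

theorem continuousOn_dens (h : SC Ω v) :
    ContinuousOn (fun x => dt v x ^ (1 / ((n : ℝ) + 2))) Ω :=
  (H651.continuousOn_dt h).rpow_const fun _ hx => Or.inl (h.dt_pos hx).ne'

/-- upper bound of the affine area of a section -/
theorem area_split (h : SC Ω v) (hc : ∀ t, IsCompact {x | x ∈ Ω ∧ v x ≤ t}) (t₀ t : ℝ)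
    {W : En n → ℝ} (hW : ContinuousOn W Ω) (hW0 : ∀ x ∈ Ω, 0 < W x) {A B : ℝ} (hA0 : 0 ≤ A)
    (hB0 : 0 ≤ B)
    (hA : ∫⁻ x in {x | x ∈ Ω ∧ v x < t ∧ t₀ < v x},
      ENNReal.ofReal (dt v x * W x ^ (-((n : ℝ) + 1))) ≤ ENNReal.ofReal A)
    (hB : ∫⁻ x in {x | x ∈ Ω ∧ v x < t ∧ t₀ < v x}, ENNReal.ofReal (W x) ≤ ENNReal.ofReal B) :
    ∫ x in {x | x ∈ Ω ∧ v x < t}, dt v x ^ (1 / ((n : ℝ) + 2)) ≤
      (∫ x in {x | x ∈ Ω ∧ v x ≤ t₀}, dt v x ^ (1 / ((n : ℝ) + 2))) + A + B := by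
  set f : En n → ℝ := fun x => dt v x ^ (1 / ((n : ℝ) + 2)) with hf
  set G := {x | x ∈ Ω ∧ v x < t ∧ t₀ < v x} with hG
  have hGo : IsOpen G := by
    have := (isOpen_lt' h t).inter (isOpen_gt h t₀)
    convert this using 1
    ext x
    simp only [hG, mem_ofPred_eq, mem_inter_iff]
    tauto
  have hint : ∀ s, IntegrableOn f {x | x ∈ Ω ∧ v x ≤ s} := fun s =>
    ((continuousOn_dens h).mono fun x hx => hx.1).integrableOn_compact (hc s)
  have hf0 : ∀ x ∈ Ω, 0 ≤ f x := fun x hx => Real.rpow_nonneg (h.dt_pos hx).le _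
  have hnn : ∀ S : Set (En n), MeasurableSet S → S ⊆ Ω → 0 ≤ᵐ[volume.restrict S] f :=
    fun S hS hSΩ => (ae_restrict_iff' hS).2 (Eventually.of_forall fun x hx => hf0 x (hSΩ hx))
  have hK0 : MeasurableSet {x | x ∈ Ω ∧ v x ≤ t₀} := (hc t₀).isClosed.measurableSet
  have hI0 : 0 ≤ ∫ x in {x | x ∈ Ω ∧ v x ≤ t₀}, f x :=
    integral_nonneg_of_ae (hnn _ hK0 fun x hx => hx.1)
  rw [← ENNReal.ofReal_le_ofReal_iff (by positivity), ENNReal.ofReal_add (by positivity) hB0,
    ENNReal.ofReal_add hI0 hA0,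
    ofReal_integral_eq_lintegral_ofReal ((hint t).mono_set fun x hx => ⟨hx.1, hx.2.le⟩)
      (hnn _ (isOpen_lt' h t).measurableSet fun x hx => hx.1),
    ofReal_integral_eq_lintegral_ofReal (hint t₀) (hnn _ hK0 fun x hx => hx.1), add_assoc]
  have hsub : {x | x ∈ Ω ∧ v x < t} ⊆ {x | x ∈ Ω ∧ v x ≤ t₀} ∪ G := by
    intro x hx
    by_cases h1 : v x ≤ t₀
    · exact Or.inl ⟨hx.1, h1⟩
    · exact Or.inr ⟨hx.1, hx.2, not_le.1 h1⟩
  refine (lintegral_mono_set hsub).trans ((lintegral_union_le _ _ _).trans ?_)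
  gcongr
  refine le_trans ?_ (add_le_add hA hB)
  have hm : AEMeasurable (fun x => ENNReal.ofReal (W x)) (volume.restrict G) :=
    ((hW.mono fun x hx => hx.1).aemeasurable hGo.measurableSet).ennreal_ofReal
  rw [← lintegral_add_right' _ hm]
  refine setLIntegral_mono' hGo.measurableSet fun x hx => ?_
  have hd := h.dt_pos hx.1
  have hw := hW0 x hx.1
  rw [← ENNReal.ofReal_add (by positivity) hw.le]
  exact ENNReal.ofReal_le_ofReal (young hd hw)

/-- lower bound of the affine area of a section -/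
theorem area_low (h : AMC Ω v) (hc : ∀ t, IsCompact {x | x ∈ Ω ∧ v x ≤ t}) (p : En n)
    {H κ ρ : ℝ} (hH : 0 < H) (hκ : 0 < κ)
    (hbd : ∀ x ∈ Ω, v x ≤ 2 * H → κ * ‖x - p‖ ^ 2 ≤ H / 2)
    (hball : ∀ x, ‖x - p‖ < ρ → x ∈ Ω ∧ v x < H) :
    (2 * κ) ^ ((n : ℝ) / ((n : ℝ) + 2)) * (volume (Metric.ball p ρ)).toReal ≤
      ∫ x in {x | x ∈ Ω ∧ v x < 2 * H}, dt v x ^ (1 / ((n : ℝ) + 2)) := by
  set w := tr v (ContinuousLinearEquiv.refl ℝ _) 0 H⁻¹ 0 0 with hw
  have hD : trD Ω (ContinuousLinearEquiv.refl ℝ _) 0 = Ω := by ext x; simp [trD]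
  have hwl : AMLoc Ω w := hD ▸ amLoc_tr h.toAMLoc (inv_pos.2 hH)
  have hnu : ∀ x, nu w 0 1 0 x = H⁻¹ * v x := by intro x; simp [nu, hw, tr]
  have hle : ∀ x, nu w 0 1 0 x ≤ 2 ↔ v x ≤ 2 * H := by
    intro x; rw [hnu, inv_mul_le_iff₀ hH, mul_comm]
  have hlt : ∀ x, nu w 0 1 0 x < 2 ↔ v x < 2 * H := by
    intro x; rw [hnu, inv_mul_lt_iff₀ hH, mul_comm]
  have hdt : ∀ x ∈ Ω, dt w x = H⁻¹ ^ n * dt v x := by
    intro x hx
    have hm : mT (ContinuousLinearEquiv.refl ℝ (En n)) = 1 := H474.linM_id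
    rw [hw, dt_tr h.op h.toSC.two (by simpa using hx), hm]
    simp
  have key := H651.area_core (H372.compare n) hwl 0 p (t := 2) (κ := κ / H) (ρ := ρ)
    (by positivity) (by simp only [hle]; exact hc _) (fun x hx h2 => by
      have h3 := hbd x hx ((hle x).1 h2)
      have h4 : ∑ i, (x i - p i) ^ 2 = ‖x - p‖ ^ 2 := by
        rw [EuclideanSpace.real_norm_sq_eq]; rfl
      rw [h4, div_mul_eq_mul_div, div_le_iff₀ hH]
      linarith)
    (fun x hx => ⟨(hball x hx).1, by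
      rw [hnu, inv_mul_lt_iff₀ hH]; linarith [(hball x hx).2]⟩)
  simp only [hlt] at key
  have e1 : ∫ x in {x | x ∈ Ω ∧ v x < 2 * H}, dt w x ^ (1 / ((n : ℝ) + 2)) =
      H⁻¹ ^ ((n : ℝ) / ((n : ℝ) + 2)) *
        ∫ x in {x | x ∈ Ω ∧ v x < 2 * H}, dt v x ^ (1 / ((n : ℝ) + 2)) := by
    rw [← integral_const_mul]
    refine setIntegral_congr_fun (isOpen_lt' h.toSC _).measurableSet fun x hx => ?_
    rw [hdt x hx.1, Real.mul_rpow (by positivity) (h.toSC.dt_pos hx.1).le, ← Real.rpow_natCast,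
      ← Real.rpow_mul (by positivity), mul_one_div]
  have e2 : (2 * (κ / H)) ^ ((n : ℝ) / ((n : ℝ) + 2)) =
      H⁻¹ ^ ((n : ℝ) / ((n : ℝ) + 2)) * (2 * κ) ^ ((n : ℝ) / ((n : ℝ) + 2)) := by
    rw [← Real.mul_rpow (by positivity) (by positivity)]
    congr 1
    field_simp
  rw [e1, e2, mul_assoc] at key
  exact le_of_mul_le_mul_left key (by positivity)

theorem pow_rpow_frac {s : ℝ} (hs : 0 < s) :
    (s ^ (n + 2)) ^ ((n : ℝ) / ((n : ℝ) + 2)) = s ^ n := by
  rw [← Real.rpow_natCast, ← Real.rpow_mul hs.le, ← Real.rpow_natCast]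
  congr 1
  push_cast
  field_simp

/-- no growth: `c sᵐ ≤ A` for all large `s` is impossible -/
theorem no_growth {c A : ℝ} {m : ℕ} (hm : m ≠ 0) (hc : 0 < c)
    (h : ∀ᶠ s : ℝ in atTop, c * s ^ m ≤ A) : False := by
  have h1 := ((tendsto_pow_atTop hm).const_mul_atTop hc).eventually_gt_atTop A
  obtain ⟨s, h2, h3⟩ := (h.and h1).exists
  linarith

theorem continuousOn_Lam (h : SC Ω v) (X : En n) (z : ℝ) : ContinuousOn (Lam v X z) Ω := by
  unfold Lam
  refine (continuousOn_const.sub h.sm.continuousOn).sub (continuousOn_finsetSum _ fun i _ => ?_)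
  exact (Vale.Agent.P252.contDiffOn_pd h.op i v h.sm).continuousOn.mul (by fun_prop)

/-- the integral of the support function over a section of a graph over a bounded domain -/
theorem lam_int (h : AMC Ω v) (hc : ∀ t, IsCompact {x | x ∈ Ω ∧ v x ≤ t})
    (h0 : ∀ x ∈ Ω, 0 ≤ v x) {p : En n} (hL : ∀ x ∈ Ω, 0 ≤ Lam v p 0 x) (hV : volume Ω ≠ ⊤)
    {H : ℝ} (hH : 0 < H) :
    ∫ x in {x | x ∈ Ω ∧ v x < 2 * H}, Lam v p 0 x ≤ 6 * n * (volume Ω).toReal * H := by
  have hnu : ∀ x, nu v 0 1 0 x = v x := by intro x; simp [nu]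
  have key := H723.lamInt n Ω v h.toSC p 0 0 1 0 (4 * H) one_pos (by simp only [hnu]; exact hc _)
  simp only [hnu, Pi.zero_apply, zero_mul, Finset.sum_const_zero, mul_zero, integral_zero,
    sub_zero, mul_one] at key
  set S := {x | x ∈ Ω ∧ v x < 4 * H} with hS
  have hSm : MeasurableSet S := (isOpen_lt' h.toSC _).measurableSet
  have hint : ∀ f : En n → ℝ, ContinuousOn f Ω → IntegrableOn f S := fun f hf =>
    ((hf.mono fun x hx => hx.1).integrableOn_compact (hc (4 * H))).mono_set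
      fun x hx => ⟨hx.1, hx.2.le⟩
  have hvc := h.sm.continuousOn
  have hLc := continuousOn_Lam h.toSC p 0
  have h1 : ∫ x in S, (4 * H - v x) ^ 2 * (0 - v x) ≤ 0 :=
    setIntegral_nonpos hSm fun x hx => mul_nonpos_of_nonneg_of_nonpos (sq_nonneg _)
      (by linarith [h0 x hx.1])
  have hSV : (volume S).toReal ≤ (volume Ω).toReal :=
    ENNReal.toReal_mono hV (measure_mono fun x hx => hx.1)
  have h2 : ∫ x in S, (4 * H - v x) ^ 3 ≤ (volume Ω).toReal * (4 * H) ^ 3 := by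
    have h3 : ∫ x in S, (4 * H - v x) ^ 3 ≤ ∫ x in S, (4 * H) ^ 3 := by
      refine setIntegral_mono_on (hint _ ((continuousOn_const.sub hvc).pow 3))
        (hint _ continuousOn_const) hSm fun x hx => ?_
      exact pow_le_pow_left₀ (by linarith [hx.2]) (by linarith [h0 x hx.1]) 3
    rw [setIntegral_const, smul_eq_mul] at h3
    exact h3.trans (mul_le_mul_of_nonneg_right hSV (by positivity))
  have h4 : (2 * H) ^ 2 * ∫ x in {x | x ∈ Ω ∧ v x < 2 * H}, Lam v p 0 x ≤
      ∫ x in S, (4 * H - v x) ^ 2 * Lam v p 0 x := by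
    have hsub : {x | x ∈ Ω ∧ v x < 2 * H} ⊆ S := fun x hx => ⟨hx.1, by linarith [hx.2]⟩
    have hI : IntegrableOn (fun x => (4 * H - v x) ^ 2 * Lam v p 0 x) S :=
      hint _ (((continuousOn_const (c := 4 * H)).sub hvc).pow 2 |>.mul hLc)
    rw [← integral_const_mul]
    refine le_trans (setIntegral_mono_on
      (((hint _ hLc).mono_set hsub).const_mul _) (hI.mono_set hsub)
      (isOpen_lt' h.toSC _).measurableSet fun x hx => ?_)
      (setIntegral_mono_set hI ((ae_restrict_iff' hSm).2 (Eventually.of_forall fun x hx =>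
        mul_nonneg (sq_nonneg _) (hL x hx.1))) hsub.eventuallyLE)
    exact mul_le_mul_of_nonneg_right
      (pow_le_pow_left₀ (by positivity) (by linarith [hx.2]) 2) (hL x hx.1)
  have h5 : (n : ℝ) / 3 * ∫ x in S, (4 * H - v x) ^ 3 ≤
      (n : ℝ) / 3 * ((volume Ω).toReal * (4 * H) ^ 3) :=
    mul_le_mul_of_nonneg_left h2 (by positivity)
  have h6 : (2 * H) ^ 2 * ∫ x in {x | x ∈ Ω ∧ v x < 2 * H}, Lam v p 0 x ≤
      (2 * H) ^ 2 * (6 * n * (volume Ω).toReal * H) := by
    have h7 : 0 ≤ (n : ℝ) * (volume Ω).toReal * H ^ 3 := by positivity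
    nlinarith
  exact le_of_mul_le_mul_left h6 (by positivity)

/-- **No complete affine maximal graph over a bounded domain.** -/
theorem not_bounded (hn : 1 ≤ n) {u : En n → ℝ} (hu : AMC Ω u) : ¬ Bornology.IsBounded Ω := by
  intro hb
  obtain ⟨p, hp⟩ := hu.ne
  set v := brg u p with hv
  have h : AMC Ω v := amc_brg hu p
  have h0 : ∀ x ∈ Ω, 0 ≤ v x := fun x hx => brg_nonneg hu.toSC hu.cv hp hx
  have hc : ∀ t, IsCompact {x | x ∈ Ω ∧ v x ≤ t} := secCompact n Ω u hu.toSC hu.cv hu.cl p hp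
  have hvp : v p = 0 := by simp [hv, brg]
  have hL : ∀ x ∈ Ω, 0 ≤ Lam v p 0 x := by
    intro x hx
    have := brg_nonneg h.toSC h.cv hx hp
    simp only [brg, hvp] at this
    simpa [Lam] using this
  have hLz : ∀ z x, Lam v p z x = z + Lam v p 0 x := by intro z x; simp only [Lam]; ring
  have hV : volume Ω ≠ ⊤ := hb.measure_lt_top.ne
  obtain ⟨R, hR, hΩR⟩ := hb.subset_ball_lt 0 p
  obtain ⟨r, hr, hball⟩ := Metric.nhds_basis_closedBall.mem_iff.1 (h.op.mem_nhds hp)
  obtain ⟨m, hm⟩ := (isCompact_closedBall p r).exists_bound_of_continuousOn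
    (h.sm.continuousOn.mono hball)
  have hn0 : (0 : ℝ) < n := by exact_mod_cast hn
  obtain ⟨C, hC, hgi⟩ := gradImage n
  set c1 := (1 / R ^ 2) ^ ((n : ℝ) / ((n : ℝ) + 2)) * (volume (Metric.ball p r)).toReal with hc1
  have hc10 : 0 < c1 := mul_pos (by positivity) (ENNReal.toReal_pos
    (Metric.measure_ball_pos _ _ hr).ne' measure_ball_lt_top.ne)
  set C2 := 6 * n * (volume Ω).toReal + 1 with hC2
  have hC20 : 0 < C2 := by positivity
  set η := c1 / (4 * C2) with hη
  have hη0 : 0 < η := by positivity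
  set M := 2 + 8 * C / (η ^ (n + 1) * (r / n) ^ n * c1) with hM
  have hM2 : 2 ≤ M := le_add_of_nonneg_right (by positivity)
  obtain ⟨t₀, ht₀⟩ := exists_tail h.toSC volume hV (show 0 < 1 / M by positivity)
  refine no_growth (m := n) (by omega) (show 0 < c1 / 2 by positivity)
    (A := ∫ x in {x | x ∈ Ω ∧ v x ≤ t₀}, dt v x ^ (1 / ((n : ℝ) + 2))) ?_
  filter_upwards [eventually_gt_atTop 0,
    (tendsto_pow_atTop (show n + 2 ≠ 0 by omega)).eventually_gt_atTop m] with s hs hsm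
  set H := s ^ (n + 2) with hH
  have hH0 : 0 < H := by positivity
  have hlow := area_low h hc p (H := H) (κ := H / (2 * R ^ 2)) (ρ := r) hH0 (by positivity)
    (fun x hx _ => by
      have h1 : ‖x - p‖ ≤ R := by
        have := hΩR hx
        rw [mem_ball_iff_norm] at this
        exact this.le
      have h2 : ‖x - p‖ ^ 2 ≤ R ^ 2 := pow_le_pow_left₀ (norm_nonneg _) h1 2
      calc H / (2 * R ^ 2) * ‖x - p‖ ^ 2 ≤ H / (2 * R ^ 2) * R ^ 2 := by gcongr
        _ = H / 2 := by field_simp)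
    (fun x hx => by
      have hx' : x ∈ Metric.closedBall p r := by rw [mem_closedBall_iff_norm]; exact hx.le
      exact ⟨hball hx', lt_of_le_of_lt ((le_abs_self _).trans (hm x hx')) hsm⟩)
  have e0 : (2 * (H / (2 * R ^ 2))) ^ ((n : ℝ) / ((n : ℝ) + 2)) *
      (volume (Metric.ball p r)).toReal = c1 * s ^ n := by
    rw [show 2 * (H / (2 * R ^ 2)) = H * (1 / R ^ 2) by field_simp,
      Real.mul_rpow hH0.le (by positivity), hH, pow_rpow_frac hs, hc1]
    ring
  rw [e0] at hlow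
  set l := η / s ^ 2 with hl
  have hl0 : 0 < l := by positivity
  set G := {x | x ∈ Ω ∧ v x < 2 * H ∧ t₀ < v x} with hG
  have hGm : MeasurableSet G := by
    have := ((isOpen_lt' h.toSC (2 * H)).inter (isOpen_gt h.toSC t₀)).measurableSet
    convert this using 1
    ext x
    simp only [hG, mem_ofPred_eq, mem_inter_iff]
    tauto
  have hMH : 0 < M * H := by positivity
  have hLp : ∀ x ∈ Ω, 0 < Lam v p (M * H) x := fun x hx => by rw [hLz]; linarith [hL x hx]
  have hup := area_split h.toSC hc t₀ (2 * H) (W := fun x => l * Lam v p (M * H) x)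
    (continuousOn_const.mul (continuousOn_Lam h.toSC _ _)) (fun x hx => mul_pos hl0 (hLp x hx))
    (A := c1 / 4 * s ^ n) (B := c1 / 4 * s ^ n) (by positivity) (by positivity) ?_ ?_
  · linarith
  · have h1 := hgi Ω v h.toSC h.cv p (M * H) (M * H / 2) (fun _ => r / n) (by positivity)
      (fun _ => by positivity) (fun d z hd hz => by
        have h2 : ‖d‖ ≤ r := by
          have := H889.norm_le_of_abs_le hd
          rwa [mul_div_cancel₀ _ hn0.ne'] at this
        have h3 : p + d ∈ Metric.closedBall p r := by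
          rw [mem_closedBall_iff_norm]; simpa using h2
        refine ⟨hball h3, ?_⟩
        have h4 := (le_abs_self _).trans (hm _ h3)
        have h5 := (abs_le.1 hz).1
        show v (p + d) ≤ M * H + z
        nlinarith) G hGm (fun x hx => hx.1)
    have h2 : ∀ x ∈ G, ENNReal.ofReal (dt v x * (l * Lam v p (M * H) x) ^ (-((n : ℝ) + 1))) =
        ENNReal.ofReal (l ^ (-((n : ℝ) + 1))) *
          ENNReal.ofReal (dt v x * Lam v p (M * H) x ^ (-((n : ℝ) + 1))) := by
      intro x hx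
      rw [← ENNReal.ofReal_mul (by positivity), Real.mul_rpow hl0.le (hLp x hx.1).le]
      congr 1
      ring
    rw [setLIntegral_congr_fun hGm h2, lintegral_const_mul' _ _ ENNReal.ofReal_ne_top]
    refine (mul_le_mul_right h1 _).trans ?_
    rw [← ENNReal.ofReal_mul (by positivity)]
    refine ENNReal.ofReal_le_ofReal ?_
    have e1 : l ^ (-((n : ℝ) + 1)) = (s ^ 2 / η) ^ (n + 1) := by
      rw [Real.rpow_neg hl0.le, ← Real.inv_rpow hl0.le, hl, inv_div, ← Real.rpow_natCast _ (n + 1)]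
      push_cast
      rfl
    have e2 : 8 * C / (η ^ (n + 1) * (r / n) ^ n * c1) ≤ M := by rw [hM]; linarith
    rw [e1, Finset.prod_const, Finset.card_univ, Fintype.card_fin]
    rw [div_le_iff₀ (by positivity)] at e2
    have e3 : (s ^ 2 / η) ^ (n + 1) * (C / (M * H / 2 * (r / n) ^ n)) =
        2 * C / (M * (η ^ (n + 1) * (r / n) ^ n)) * s ^ n := by
      rw [hH, div_pow]
      field_simp
      ring
    rw [e3]
    refine mul_le_mul_of_nonneg_right ?_ (by positivity)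
    rw [div_le_div_iff₀ (by positivity) (by norm_num)]
    nlinarith
  · have hsub : G ⊆ {x | x ∈ Ω ∧ v x < 2 * H} := fun x hx => ⟨hx.1, hx.2.1⟩
    have h1 : ∀ x ∈ G, ENNReal.ofReal (l * Lam v p (M * H) x) =
        ENNReal.ofReal (l * (M * H)) + ENNReal.ofReal l * ENNReal.ofReal (Lam v p 0 x) := by
      intro x hx
      rw [hLz, mul_add, ENNReal.ofReal_add (by positivity) (mul_nonneg hl0.le (hL x hx.1)),
        ENNReal.ofReal_mul (p := l) (q := Lam v p 0 x) hl0.le]
    have h2 : ∫⁻ x in G, ENNReal.ofReal (Lam v p 0 x) ≤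
        ENNReal.ofReal (6 * n * (volume Ω).toReal * H) := by
      refine (lintegral_mono_set hsub).trans ?_
      rw [← ofReal_integral_eq_lintegral_ofReal
        ((((continuousOn_Lam h.toSC p 0).mono fun x hx => hx.1).integrableOn_compact
          (hc (2 * H))).mono_set fun x hx => ⟨hx.1, hx.2.le⟩)
        ((ae_restrict_iff' (isOpen_lt' h.toSC _).measurableSet).2
          (Eventually.of_forall fun x hx => hL x hx.1))]
      exact ENNReal.ofReal_le_ofReal (lam_int h hc h0 hL hV hH0)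
    have h3 : volume G ≤ ENNReal.ofReal (1 / M) :=
      le_trans (measure_mono (t := {x | x ∈ Ω ∧ t₀ < v x}) fun x hx => ⟨hx.1, hx.2.2⟩) ht₀
    rw [setLIntegral_congr_fun hGm h1, lintegral_add_left measurable_const, setLIntegral_const,
      lintegral_const_mul' _ _ ENNReal.ofReal_ne_top]
    refine (add_le_add (mul_le_mul_right h3 _) (mul_le_mul_right h2 _)).trans ?_
    rw [← ENNReal.ofReal_mul (by positivity), ← ENNReal.ofReal_mul hl0.le,
      ← ENNReal.ofReal_add (by positivity) (by positivity)]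
    refine ENNReal.ofReal_le_ofReal (le_of_eq ?_)
    have e1 : l * (M * H) * (1 / M) + l * (6 * n * (volume Ω).toReal * H) = l * H * C2 := by
      rw [hC2]; field_simp; ring
    rw [e1, hl, hη, hH]
    field_simp
    ring

/-- **The gradient of a complete affine maximal graph is unbounded.** -/
theorem not_lipschitz (hn : 1 ≤ n) {u : En n → ℝ} (hu : AMC Ω u) :
    ¬ ∃ G : ℝ, ∀ x ∈ Ω, ‖fderiv ℝ u x‖ ≤ G := by
  rintro ⟨G₀, hG₀⟩
  obtain ⟨p, hp⟩ := hu.ne
  set v := brg u p with hv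
  have h : AMC Ω v := amc_brg hu p
  have hc : ∀ t, IsCompact {x | x ∈ Ω ∧ v x ≤ t} := secCompact n Ω u hu.toSC hu.cv hu.cl p hp
  have hvp : v p = 0 := by simp [hv, brg]
  have hvt : v = fun x => u x - u p - fderiv ℝ u p (x - p) := funext fun x => brg_eq_tilt u p x
  set G := 2 * G₀ + 1 with hGdef
  have hG00 : 0 ≤ G₀ := (norm_nonneg _).trans (hG₀ p hp)
  have hG0 : 0 < G := by positivity
  have hG : ∀ x ∈ Ω, ‖fderiv ℝ v x‖ ≤ G := by
    intro x hx
    have h1 : HasFDerivAt v (fderiv ℝ u x - fderiv ℝ u p) x := by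
      rw [hvt]
      have h2 : HasFDerivAt (fun x => fderiv ℝ u p (x - p)) (fderiv ℝ u p) x :=
        (fderiv ℝ u p).hasFDerivAt.comp x ((hasFDerivAt_id x).sub_const p)
      exact ((hu.toSC.diffAt hx).hasFDerivAt.sub_const _).sub h2
    rw [h1.fderiv]
    linarith [norm_sub_le (fderiv ℝ u x) (fderiv ℝ u p), hG₀ x hx, hG₀ p hp]
  have hlip : ∀ x ∈ Ω, v x ≤ G * ‖x - p‖ := by
    intro x hx
    have h1 := tangent_le h.op h.cv h.sm h.pos hx hp
    have h2 := (fderiv ℝ v x).le_of_opNorm_le (hG x hx) (p - x)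
    rw [norm_sub_rev, Real.norm_eq_abs] at h2
    linarith [(abs_le.1 h2).1]
  have hU : Ω = univ := by
    refine IsClopen.eq_univ ⟨?_, h.op⟩ h.ne
    have := isClosed_le_cont_of_epi h.cl (l := fun x => G * ‖x - p‖) (by fun_prop)
    convert this using 1
    exact Set.ext fun x => ⟨fun hx => ⟨hx, hlip x hx⟩, fun hx => hx.1⟩
  obtain ⟨r, hr, m, hm, -, hgrow⟩ := tilt_growth hu.op hu.cv hu.sm hu.pos hp
  set R := 2 / m + r with hRdef
  have hR : 0 < R := by positivity
  set wb := (volume (Metric.ball (0 : En n) 1)).toReal with hwb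
  have hwb0 : 0 < wb := ENNReal.toReal_pos (Metric.measure_ball_pos _ _ one_pos).ne'
    measure_ball_lt_top.ne
  set c1 := (1 / R ^ 2) ^ ((n : ℝ) / ((n : ℝ) + 2)) * (G⁻¹ ^ n * wb) with hc1
  have hc10 : 0 < c1 := by positivity
  set η := c1 / (4 * (R ^ n * wb)) with hη
  have hη0 : 0 < η := by positivity
  set μ : Measure (En n) := volume.withDensity fun x => ENNReal.ofReal (dt v x) with hμ
  have hμΩ : μ Ω ≠ ⊤ := by
    rw [hμ, withDensity_apply _ h.op.measurableSet]
    have h1 := lintegral_grad h.toSC h.cv h.op.measurableSet subset_rfl fun _ => 1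
    simp only [mul_one, lintegral_one, Measure.restrict_apply_univ] at h1
    rw [← h1]
    refine ne_top_of_le_ne_top (measure_closedBall_lt_top (x := (0 : En n)) (r := n * G)).ne
      (measure_mono ?_)
    rintro _ ⟨x, hx, rfl⟩
    rw [mem_closedBall_zero_iff]
    refine H889.norm_le_of_abs_le fun i => ?_
    have := (fderiv ℝ v x).le_of_opNorm_le (hG x hx) (EuclideanSpace.single i 1)
    rw [PiLp.norm_single, norm_one, mul_one, Real.norm_eq_abs] at this
    exact this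
  obtain ⟨t₀, ht₀⟩ := exists_tail h.toSC μ hμΩ (show 0 < η ^ (n + 1) * (c1 / 4) by positivity)
  refine no_growth (m := n * (n + 1)) (by positivity) (show 0 < c1 / 2 by positivity)
    (A := ∫ x in {x | x ∈ Ω ∧ v x ≤ t₀}, dt v x ^ (1 / ((n : ℝ) + 2))) ?_
  filter_upwards [eventually_ge_atTop 1] with s hs1
  have hs : 0 < s := by linarith
  set H := s ^ (n + 2) with hH
  have hH1 : 1 ≤ H := one_le_pow₀ hs1
  have hH0 : 0 < H := by positivity
  have hsec : ∀ x ∈ Ω, v x ≤ 2 * H → ‖x - p‖ ≤ R * H := by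
    intro x hx h2
    have h3 : 0 ≤ 2 / m * H := by positivity
    rw [hRdef, add_mul]
    rcases le_total r (dist x p) with h1 | h1
    · have h4 := hgrow x hx h1
      rw [← brg_eq_tilt, dist_eq_norm] at h4
      have h5 : ‖x - p‖ ≤ 2 / m * H := by
        rw [div_mul_eq_mul_div, le_div_iff₀ hm]
        linarith
      nlinarith
    · rw [dist_eq_norm] at h1
      nlinarith
  have hlow := area_low h hc p (H := H) (κ := 1 / (2 * R ^ 2 * H)) (ρ := G⁻¹ * H) hH0
    (by positivity) (fun x hx h2 => by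
      have h3 : ‖x - p‖ ^ 2 ≤ (R * H) ^ 2 := pow_le_pow_left₀ (norm_nonneg _) (hsec x hx h2) 2
      calc 1 / (2 * R ^ 2 * H) * ‖x - p‖ ^ 2 ≤ 1 / (2 * R ^ 2 * H) * (R * H) ^ 2 := by gcongr
        _ = H / 2 := by field_simp)
    (fun x hx => by
      have hx' : x ∈ Ω := hU ▸ mem_univ x
      refine ⟨hx', (hlip x hx').trans_lt ?_⟩
      rwa [← lt_inv_mul_iff₀ hG0])
  have e0 : (2 * (1 / (2 * R ^ 2 * H))) ^ ((n : ℝ) / ((n : ℝ) + 2)) *
      (volume (Metric.ball p (G⁻¹ * H))).toReal = c1 * s ^ (n * (n + 1)) := by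
    rw [show 2 * (1 / (2 * R ^ 2 * H)) = H⁻¹ * (1 / R ^ 2) by field_simp,
      Real.mul_rpow (by positivity) (by positivity), Real.inv_rpow hH0.le, hH, pow_rpow_frac hs,
      Measure.addHaar_ball_of_pos _ _ (by positivity), ENNReal.toReal_mul,
      ENNReal.toReal_ofReal (by positivity), finrank_euclideanSpace_fin, hc1, ← hwb, mul_pow,
      ← pow_mul]
    field_simp
    ring
  rw [e0] at hlow
  set W := η / s ^ n with hW
  have hW0 : 0 < W := by positivity
  set G' := {x | x ∈ Ω ∧ v x < 2 * H ∧ t₀ < v x} with hG'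
  have hGm : MeasurableSet G' := by
    have := ((isOpen_lt' h.toSC (2 * H)).inter (isOpen_gt h.toSC t₀)).measurableSet
    convert this using 1
    ext x
    simp only [hG', mem_ofPred_eq, mem_inter_iff]
    tauto
  have hup := area_split h.toSC hc t₀ (2 * H) (W := fun _ => W) continuousOn_const
    (fun _ _ => hW0) (A := c1 / 4 * s ^ (n * (n + 1))) (B := c1 / 4 * s ^ (n * (n + 1)))
    (by positivity) (by positivity) ?_ ?_
  · linarith
  · have h1 : ∀ x ∈ G', ENNReal.ofReal (dt v x * W ^ (-((n : ℝ) + 1))) =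
        ENNReal.ofReal (W ^ (-((n : ℝ) + 1))) * ENNReal.ofReal (dt v x) := by
      intro x _
      rw [← ENNReal.ofReal_mul (by positivity), mul_comm]
    have h2 : ∫⁻ x in G', ENNReal.ofReal (dt v x) ≤ ENNReal.ofReal (η ^ (n + 1) * (c1 / 4)) := by
      rw [← withDensity_apply _ hGm]
      exact le_trans (measure_mono (t := {x | x ∈ Ω ∧ t₀ < v x}) fun x hx => ⟨hx.1, hx.2.2⟩) ht₀
    rw [setLIntegral_congr_fun hGm h1, lintegral_const_mul' _ _ ENNReal.ofReal_ne_top]
    refine (mul_le_mul_right h2 _).trans ?_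
    rw [← ENNReal.ofReal_mul (by positivity)]
    refine ENNReal.ofReal_le_ofReal (le_of_eq ?_)
    have e1 : W ^ (-((n : ℝ) + 1)) = (s ^ n / η) ^ (n + 1) := by
      rw [Real.rpow_neg hW0.le, ← Real.inv_rpow hW0.le, hW, inv_div, ← Real.rpow_natCast _ (n + 1)]
      push_cast
      rfl
    rw [e1, div_pow, ← pow_mul]
    field_simp
  · have h1 : volume G' ≤ volume (Metric.closedBall p (R * H)) := by
      refine measure_mono fun x hx => ?_
      rw [mem_closedBall_iff_norm]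
      exact hsec x hx.1 hx.2.1.le
    rw [setLIntegral_const]
    refine (mul_le_mul_right h1 _).trans ?_
    rw [Measure.addHaar_closedBall _ _ (by positivity), finrank_euclideanSpace_fin,
      ← ENNReal.ofReal_toReal (measure_ball_lt_top (x := (0 : En n)) (r := 1)).ne, ← hwb,
      ← ENNReal.ofReal_mul (by positivity), ← ENNReal.ofReal_mul hW0.le]
    refine ENNReal.ofReal_le_ofReal (le_of_eq ?_)
    rw [hW, hη, hH, mul_pow, ← pow_mul]
    field_simp
    ring

end Vale.Agent.N252
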