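import Vale.Agent.P252.Defs
import Vale.Agent.P252.AffineDefs
import Vale.Agent.P252.BernsteinDefs

open scoped ContDiff Topology
open Filter

namespace Vale.Agent.N252

open Vale.Agent.P252

/-- The standing hypotheses of the problem: `Ω ⊆ ℝⁿ` is nonempty, open and convex, `u ∈ C^∞(Ω)`
has positive definite Hessian and solves the affine maximal equation (AM) in `Ω`. -/
def IsAffineMaximal {n : ℕ} (Ω : Set (EuclideanSpace ℝ (Fin n)))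
    (u : EuclideanSpace ℝ (Fin n) → ℝ) : Prop :=
  Ω.Nonempty ∧ IsOpen Ω ∧ Convex ℝ Ω ∧ ContDiffOn ℝ ∞ u Ω ∧ (∀ x ∈ Ω, (hess u x).PosDef) ∧
    AffineMaximalOn Ω u

/-- `Ω` has a `k`-wedge: in affine coordinates `x₀ + T x`, `Ω` lies in the wedge
`{x_i ≥ 0 for i < k}`, and suitable dilates of `Ω` about `x₀` exhaust the open orthant
`{x_i > 0 for i < k, x_i = 0 for i ≥ k}` (factors `ε j → 0`: a corner of `Ω` at `x₀`). -/
def HasWedge {n : ℕ} (Ω : Set (EuclideanSpace ℝ (Fin n))) (k : ℕ) : Prop :=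
  ∃ (x₀ : EuclideanSpace ℝ (Fin n))
    (T : EuclideanSpace ℝ (Fin n) ≃L[ℝ] EuclideanSpace ℝ (Fin n)) (ε : ℕ → ℝ),
    (∀ j, 0 < ε j) ∧ (∀ x, x₀ + T x ∈ Ω → ∀ i : Fin n, i.val < k → 0 ≤ x i) ∧
    ∀ x : EuclideanSpace ℝ (Fin n), (∀ i : Fin n, i.val < k → 0 < x i) →
      (∀ i : Fin n, k ≤ i.val → x i = 0) → ∀ᶠ j in atTop, x₀ + ε j • T x ∈ Ω

/-- `Ω` has no corner: at each boundary point the supporting hyperplane is unique. -/
def NoCorner {n : ℕ} (Ω : Set (EuclideanSpace ℝ (Fin n))) : Prop :=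
  ∀ x₀ ∈ frontier Ω, ∀ f g : EuclideanSpace ℝ (Fin n) →L[ℝ] ℝ, f ≠ 0 → g ≠ 0 →
    (∀ x ∈ Ω, f x₀ ≤ f x) → (∀ x ∈ Ω, g x₀ ≤ g x) → ∃ c : ℝ, g = c • f

end Vale.Agent.N252
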