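import Mathlib
import Vale.Agent.N252.Defs

/-! # A corner of a convex domain is a `2`-wedge -/

open Filter Topology Set

namespace Vale.Agent.N252

variable {n : ℕ}

/-- coordinates adapted to a biorthogonal pair -/
theorem exists_frame2 (i0 i1 : Fin n) (h01 : i0 ≠ i1) (l0 l1 : EuclideanSpace ℝ (Fin n) →L[ℝ] ℝ)
    (e0 e1 : EuclideanSpace ℝ (Fin n)) (h00 : l0 e0 = 1) (h10 : l1 e0 = 0) (h01' : l0 e1 = 0)
    (h11 : l1 e1 = 1) : ∃ T : EuclideanSpace ℝ (Fin n) ≃L[ℝ] EuclideanSpace ℝ (Fin n),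
      (∀ x, l0 (T x) = x i0) ∧ (∀ x, l1 (T x) = x i1) ∧
      ∀ x : EuclideanSpace ℝ (Fin n), (∀ i, i ≠ i0 → i ≠ i1 → x i = 0) →
        T x = x i0 • e0 + x i1 • e1 := by
  let p0 : EuclideanSpace ℝ (Fin n) →ₗ[ℝ] ℝ :=
    (EuclideanSpace.proj i0 : EuclideanSpace ℝ (Fin n) →L[ℝ] ℝ).toLinearMap
  let p1 : EuclideanSpace ℝ (Fin n) →ₗ[ℝ] ℝ :=
    (EuclideanSpace.proj i1 : EuclideanSpace ℝ (Fin n) →L[ℝ] ℝ).toLinearMap
  have hp0 : ∀ x, p0 x = x i0 := fun x => rfl
  have hp1 : ∀ x, p1 x = x i1 := fun x => rfl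
  let π := p0.prod p1
  let φ := l0.toLinearMap.prod l1.toLinearMap
  let s0 : EuclideanSpace ℝ (Fin n) := EuclideanSpace.single i0 1
  let s1 : EuclideanSpace ℝ (Fin n) := EuclideanSpace.single i1 1
  have hπ : LinearMap.range π = ⊤ := by
    rw [LinearMap.range_eq_top]
    rintro ⟨a, b⟩
    refine ⟨a • s0 + b • s1, ?_⟩
    simp [π, hp0, hp1, s0, s1, h01, h01.symm]
  have hφ : LinearMap.range φ = ⊤ := by
    rw [LinearMap.range_eq_top]
    rintro ⟨a, b⟩
    refine ⟨a • e0 + b • e1, ?_⟩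
    simp [φ, h00, h10, h01', h11]
  have hrk : Module.finrank ℝ (LinearMap.ker π) = Module.finrank ℝ (LinearMap.ker φ) := by
    have h1 := π.finrank_range_add_finrank_ker
    have h2 := φ.finrank_range_add_finrank_ker
    rw [hπ] at h1
    rw [hφ] at h2
    omega
  let S := LinearEquiv.ofFinrankEq _ _ hrk
  let P0 : EuclideanSpace ℝ (Fin n) →ₗ[ℝ] EuclideanSpace ℝ (Fin n) :=
    LinearMap.id - p0.smulRight s0 - p1.smulRight s1
  have hP0 : ∀ x, P0 x = x - x i0 • s0 - x i1 • s1 := fun x => rfl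
  have hPk : ∀ x, P0 x ∈ LinearMap.ker π := by
    intro x
    rw [LinearMap.mem_ker, hP0]
    simp [π, hp0, hp1, s0, s1, h01, h01.symm]
  let P := P0.codRestrict _ hPk
  let T0 : EuclideanSpace ℝ (Fin n) →ₗ[ℝ] EuclideanSpace ℝ (Fin n) :=
    p0.smulRight e0 + p1.smulRight e1 + (LinearMap.ker φ).subtype ∘ₗ S.toLinearMap ∘ₗ P
  have hT0 : ∀ x, T0 x = x i0 • e0 + x i1 • e1 + (S (P x) : EuclideanSpace ℝ (Fin n)) :=
    fun x => rfl
  have hk : ∀ y : LinearMap.ker φ, l0 y = 0 ∧ l1 y = 0 := by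
    intro y
    have := LinearMap.mem_ker.1 y.2
    exact ⟨congrArg Prod.fst this, congrArg Prod.snd this⟩
  have hl0 : ∀ x, l0 (T0 x) = x i0 := by
    intro x
    rw [hT0]
    simp [h00, h01', (hk _).1]
  have hl1 : ∀ x, l1 (T0 x) = x i1 := by
    intro x
    rw [hT0]
    simp [h10, h11, (hk _).2]
  have hinj : Function.Injective T0 := by
    rw [injective_iff_map_eq_zero]
    intro x hx
    have h0 : x i0 = 0 := by rw [← hl0, hx, map_zero]
    have h1 : x i1 = 0 := by rw [← hl1, hx, map_zero]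
    rw [hT0, h0, h1, zero_smul, zero_smul, zero_add, zero_add] at hx
    have h2 : P x = 0 := by
      have : S (P x) = 0 := Subtype.ext hx
      simpa using this
    have h3 : P0 x = 0 := congrArg Subtype.val h2
    rw [hP0, h0, h1] at h3
    simpa using h3
  refine ⟨(LinearEquiv.ofInjectiveEndo T0 hinj).toContinuousLinearEquiv, hl0, hl1,
    fun x hx => ?_⟩
  show T0 x = _
  have h2 : P x = 0 := by
    apply Subtype.ext
    show P0 x = 0
    rw [hP0]
    ext i
    by_cases hi0 : i = i0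
    · subst hi0; simp [s0, s1, h01]
    · by_cases hi1 : i = i1
      · subst hi1; simp [s0, s1, h01.symm]
      · simp [s0, s1, hi0, hi1, hx i hi0 hi1]
  rw [hT0, h2]
  simp

section cone

variable {E : Type*} [NormedAddCommGroup E] [NormedSpace ℝ E]

/-- the open tangent cone -/
def tcone (Ω : Set E) (x₀ : E) : Set E := {y | ∃ ε : ℝ, 0 < ε ∧ x₀ + ε • y ∈ Ω}

variable {Ω : Set E} {x₀ : E}

theorem tcone_small (ho : IsOpen Ω) (hc : Convex ℝ Ω) (hx : x₀ ∈ closure Ω) {y : E} {ε δ : ℝ}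
    (hy : x₀ + ε • y ∈ Ω) (hε : 0 < ε) (hδ : 0 < δ) (hδε : δ ≤ ε) : x₀ + δ • y ∈ Ω := by
  have h1 : x₀ + ε • y ∈ interior Ω := by rwa [ho.interior_eq]
  have h2 := hc.combo_closure_interior_mem_interior hx h1 (a := 1 - δ / ε) (b := δ / ε)
    (by rw [sub_nonneg, div_le_one hε]; exact hδε) (div_pos hδ hε) (by ring)
  rw [ho.interior_eq] at h2
  convert h2 using 1
  rw [smul_add, smul_smul, div_mul_cancel₀ _ hε.ne', sub_smul, one_smul]
  abel

theorem isOpen_tcone (ho : IsOpen Ω) : IsOpen (tcone Ω x₀) := by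
  have : tcone Ω x₀ = ⋃ ε ∈ Ioi (0 : ℝ), (fun y => x₀ + ε • y) ⁻¹' Ω := by
    ext y
    simp [tcone]
  rw [this]
  exact isOpen_biUnion fun ε _ => ho.preimage (by fun_prop)

theorem smul_tcone {y : E} (hy : y ∈ tcone Ω x₀) {c : ℝ} (hc : 0 < c) : c • y ∈ tcone Ω x₀ := by
  obtain ⟨ε, hε, h⟩ := hy
  exact ⟨ε / c, div_pos hε hc, by rwa [smul_smul, div_mul_cancel₀ _ hc.ne']⟩

theorem convex_tcone (ho : IsOpen Ω) (hc : Convex ℝ Ω) (hx : x₀ ∈ closure Ω) :
    Convex ℝ (tcone Ω x₀) := by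
  rintro y ⟨ε, hε, hy⟩ z ⟨δ, hδ, hz⟩ a b ha hb hab
  have hm : 0 < min ε δ := lt_min hε hδ
  have h1 := hc (tcone_small ho hc hx hy hε hm (min_le_left _ _))
    (tcone_small ho hc hx hz hδ hm (min_le_right _ _)) ha hb hab
  refine ⟨min ε δ, hm, ?_⟩
  convert h1 using 1
  have : x₀ = a • x₀ + b • x₀ := by rw [← add_smul, hab, one_smul]
  nth_rewrite 1 [this]
  simp only [smul_add, smul_comm (min ε δ)]
  abel

/-- a supporting functional is positive on the open tangent cone -/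
theorem pos_on_tcone (ho : IsOpen Ω) {f : E →L[ℝ] ℝ} (hf : f ≠ 0) (h : ∀ x ∈ Ω, f x₀ ≤ f x)
    {y : E} (hy : y ∈ tcone Ω x₀) : 0 < f y := by
  have h0 : ∀ z ∈ tcone Ω x₀, 0 ≤ f z := by
    rintro z ⟨ε, hε, hz⟩
    have := h _ hz
    rw [map_add, map_smul, smul_eq_mul] at this
    exact nonneg_of_mul_nonneg_right (by linarith) hε |> fun h => h
  obtain ⟨w, hw⟩ : ∃ w, f w = 1 := by
    obtain ⟨w, hw⟩ := DFunLike.ne_iff.1 hf
    exact ⟨(f w)⁻¹ • w, by rw [map_smul, smul_eq_mul, inv_mul_cancel₀ hw]⟩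
  have hc : ContinuousAt (fun s : ℝ => y - s • w) 0 := by fun_prop
  have h1 : ∀ᶠ s in 𝓝[>] (0 : ℝ), y - s • w ∈ tcone Ω x₀ :=
    (hc.eventually ((isOpen_tcone ho).mem_nhds (by simpa using hy))).filter_mono
      nhdsWithin_le_nhds
  obtain ⟨s, hs1, hs2⟩ := (h1.and self_mem_nhdsWithin).exists
  have := h0 _ hs1
  rw [map_sub, map_smul, hw, smul_eq_mul, mul_one] at this
  have hs : (0 : ℝ) < s := hs2
  linarith

/-- the edge of an open convex cone in the direction `w` -/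
theorem exists_edge {C : Set E} (ho : IsOpen C) (hc : Convex ℝ C)
    (hs : ∀ y ∈ C, ∀ c : ℝ, 0 < c → c • y ∈ C) {v w : E} (hv : v ∈ C)
    (hb : ∀ s : ℝ, v + s • w ∈ C → s < 1) :
    ∃ s₀ : ℝ, 0 < s₀ ∧ (∀ s, 0 ≤ s → s < s₀ → v + s • w ∈ C) ∧
      ∃ l : E →L[ℝ] ℝ, (∀ y ∈ C, 0 < l y) ∧ l (v + s₀ • w) = 0 := by
  set D : Set ℝ := {s | v + s • w ∈ C} with hD
  have hDo : IsOpen D := ho.preimage (by fun_prop)
  have h0 : (0 : ℝ) ∈ D := by simpa [hD] using hv
  have hbd : BddAbove D := ⟨1, fun s h => (hb s h).le⟩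
  have hlt : ∀ s ∈ D, s < sSup D := by
    intro s h
    have h1 : ∀ᶠ t in 𝓝[>] s, t ∈ D := mem_nhdsWithin_of_mem_nhds (hDo.mem_nhds h)
    obtain ⟨t, ht1, ht2⟩ := (h1.and self_mem_nhdsWithin).exists
    exact lt_of_lt_of_le ht2 (le_csSup hbd ht1)
  have hpos := hlt 0 h0
  have hin : ∀ s, 0 ≤ s → s < sSup D → v + s • w ∈ C := by
    intro s hs0 hs1
    obtain ⟨t, ht, hst⟩ := exists_lt_of_lt_csSup ⟨0, h0⟩ hs1
    have ht0 : 0 < t := lt_of_le_of_lt hs0 hst
    have := hc hv ht (a := 1 - s / t) (b := s / t)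
      (by rw [sub_nonneg, div_le_one ht0]; exact hst.le) (by positivity) (by ring)
    convert this using 1
    rw [smul_add, smul_smul, div_mul_cancel₀ _ ht0.ne', sub_smul, one_smul]
    abel
  have hnot : v + sSup D • w ∉ C := fun h => lt_irrefl _ (hlt _ h)
  obtain ⟨f, hf⟩ := geometric_hahn_banach_open_point hc ho hnot
  have hle : ∀ y ∈ C, f y ≤ 0 := by
    intro y hy
    by_contra hcon
    push Not at hcon
    have h1 := hf _ (hs y hy ((|f (v + sSup D • w)| + 1) / f y) (by positivity))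
    rw [map_smul, smul_eq_mul, div_mul_cancel₀ _ hcon.ne'] at h1
    linarith [le_abs_self (f (v + sSup D • w))]
  have hge : 0 ≤ f (v + sSup D • w) := by
    by_contra hcon
    push Not at hcon
    have hfv := (hf v hv).trans hcon
    have h1 := hf _ (hs v hv (f (v + sSup D • w) / f v) (div_pos_of_neg_of_neg hcon hfv))
    rw [map_smul, smul_eq_mul, div_mul_cancel₀ _ hfv.ne] at h1
    exact lt_irrefl _ h1
  have hle' : f (v + sSup D • w) ≤ 0 := by
    have hcont : ContinuousWithinAt (fun s : ℝ => f (v + s • w)) (Iio (sSup D)) (sSup D) := by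
      fun_prop
    refine le_of_tendsto hcont ?_
    filter_upwards [self_mem_nhdsWithin, mem_nhdsWithin_of_mem_nhds (lt_mem_nhds hpos)]
      with s h1 h2
    exact hle _ (hin s h2.le h1)
  have h00 : f (v + sSup D • w) = 0 := le_antisymm hle' hge
  refine ⟨sSup D, hpos, hin, -f, fun y hy => ?_, by
    simp only [neg_apply, h00, neg_zero]⟩
  have := hf y hy
  rw [h00] at this
  simpa using this

end cone

/-- **A corner is a `2`-wedge.** -/
theorem hasWedge_two {Ω : Set (EuclideanSpace ℝ (Fin n))} (hn : 2 ≤ n) (hne : Ω.Nonempty)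
    (ho : IsOpen Ω) (hc : Convex ℝ Ω) (h : ¬ NoCorner Ω) : HasWedge Ω 2 := by
  unfold NoCorner at h
  push Not at h
  obtain ⟨x₀, hx₀, f, g, hf0, hg0, hf, hg, hfg⟩ := h
  have hx : x₀ ∈ closure Ω := frontier_subset_closure hx₀
  obtain ⟨a, ha⟩ := hne
  set C := tcone Ω x₀ with hC
  set v := a - x₀ with hv
  have hvC : v ∈ C := ⟨1, one_pos, by simpa [hv] using ha⟩
  have hfv := pos_on_tcone ho hf0 hf hvC
  have hgv := pos_on_tcone ho hg0 hg hvC
  obtain ⟨w0, hw0⟩ : ∃ w0, f w0 / f v ≠ g w0 / g v := by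
    by_contra hcon
    push Not at hcon
    refine hfg (g v / f v) ?_
    ext w
    have := hcon w
    rw [div_eq_div_iff hfv.ne' hgv.ne'] at this
    rw [smul_apply, smul_eq_mul, div_mul_eq_mul_div, eq_div_iff hfv.ne']
    linarith
  set d := f w0 / f v - g w0 / g v with hd
  have hd0 : d ≠ 0 := sub_ne_zero.2 hw0
  set w := (2 / d) • (w0 - ((f w0 / f v + g w0 / g v) / 2) • v) with hw
  have hfw : f w = f v := by
    rw [hw, map_smul, map_sub, map_smul, smul_eq_mul, smul_eq_mul]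
    have : f w0 - (f w0 / f v + g w0 / g v) / 2 * f v = d / 2 * f v := by
      rw [hd]; field_simp; ring
    rw [this]; field_simp
  have hgw : g w = -g v := by
    rw [hw, map_smul, map_sub, map_smul, smul_eq_mul, smul_eq_mul]
    have : g w0 - (f w0 / f v + g w0 / g v) / 2 * g v = -(d / 2 * g v) := by
      rw [hd]; field_simp; ring
    rw [this]; field_simp
  have hCo : IsOpen C := isOpen_tcone ho
  have hCc : Convex ℝ C := convex_tcone ho hc hx
  have hCs : ∀ y ∈ C, ∀ c : ℝ, 0 < c → c • y ∈ C := fun y hy c hc => smul_tcone hy hc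
  obtain ⟨s₀, hs₀, hin₀, l1, hl1, hl1z⟩ := exists_edge hCo hCc hCs (w := w) hvC (by
    intro s hs
    have := pos_on_tcone ho hg0 hg hs
    rw [map_add, map_smul, hgw, smul_eq_mul] at this
    nlinarith)
  obtain ⟨s₁, hs₁, hin₁, l0, hl0, hl0z⟩ := exists_edge hCo hCc hCs (w := -w) hvC (by
    intro s hs
    have := pos_on_tcone ho hf0 hf hs
    rw [map_add, map_smul, map_neg, hfw, smul_eq_mul] at this
    nlinarith)
  set e0 := v + s₀ • w with he0
  set e1 := v + s₁ • -w with he1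
  have h0v := hl0 v hvC
  have h1v := hl1 v hvC
  have h00 : 0 < l0 e0 := by
    rw [he0, map_add, map_smul, smul_eq_mul]
    rw [map_add, map_smul, map_neg, smul_eq_mul] at hl0z
    have : 0 < l0 w := by
      by_contra hcon
      push Not at hcon
      nlinarith
    positivity
  have h11 : 0 < l1 e1 := by
    rw [he1, map_add, map_smul, map_neg, smul_eq_mul]
    rw [map_add, map_smul, smul_eq_mul] at hl1z
    have : l1 w < 0 := by
      by_contra hcon
      push Not at hcon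
      nlinarith
    nlinarith
  let i0 : Fin n := ⟨0, by omega⟩
  let i1 : Fin n := ⟨1, by omega⟩
  have h01 : i0 ≠ i1 := by simp [i0, i1]
  obtain ⟨T, hT0, hT1, hT⟩ := exists_frame2 i0 i1 h01 ((l0 e0)⁻¹ • l0) ((l1 e1)⁻¹ • l1) e0 e1
    (by simp [h00.ne']) (by simp [hl1z]) (by simp [hl0z]) (by simp [h11.ne'])
  refine ⟨x₀, T, fun j => 1 / ((j : ℝ) + 1), fun j => by positivity, fun x hx i hi => ?_,
    fun x hx1 hx0 => ?_⟩
  · have hxC : T x ∈ C := ⟨1, one_pos, by simpa using hx⟩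
    have hi' : i = i0 ∨ i = i1 := by
      rcases i with ⟨i, hi2⟩
      simp only [i0, i1, Fin.mk.injEq]
      simp only at hi
      omega
    rcases hi' with rfl | rfl
    · rw [← hT0]
      exact (mul_pos (inv_pos.2 h00) (hl0 _ hxC)).le
    · rw [← hT1]
      exact (mul_pos (inv_pos.2 h11) (hl1 _ hxC)).le
  · have ha0 : 0 < x i0 := hx1 i0 (by simp [i0])
    have ha1 : 0 < x i1 := hx1 i1 (by simp [i1])
    have hTx := hT x fun i h0 h1 => hx0 i (by
      rcases i with ⟨i, hi2⟩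
      simp only [i0, i1, ne_eq, Fin.mk.injEq] at h0 h1
      simp only
      omega)
    have hsum : 0 < x i0 + x i1 := add_pos ha0 ha1
    set s := (x i0 * s₀ - x i1 * s₁) / (x i0 + x i1) with hs
    have he : T x = (x i0 + x i1) • (v + s • w) := by
      rw [hTx, he0, he1, smul_add (x i0 + x i1), smul_smul (x i0 + x i1), hs,
        mul_div_cancel₀ _ hsum.ne']
      module
    have hvs : v + s • w ∈ C := by
      rcases le_total 0 s with h | h
      · refine hin₀ s h ?_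
        rw [hs, div_lt_iff₀ hsum]
        nlinarith [mul_pos ha1 hs₁, mul_pos ha1 hs₀]
      · have := hin₁ (-s) (by linarith) (by
          rw [hs, ← neg_div, div_lt_iff₀ hsum]
          nlinarith [mul_pos ha0 hs₁, mul_pos ha0 hs₀])
        simpa using this
    obtain ⟨ε, hε, hmem⟩ : T x ∈ C := he ▸ hCs _ hvs _ hsum
    filter_upwards [(tendsto_one_div_add_atTop_nhds_zero_nat (𝕜 := ℝ)).eventually_le_const hε]
      with j hj
    exact tcone_small ho hc hx hmem hε (by positivity) hj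

end Vale.Agent.N252
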