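import Vale.Agent.N252.Star
import Vale.Agent.N252.Defs

/-! # Wedges and corners of the domain of a complete affine maximal graph -/

open MeasureTheory Filter Topology Set
open scoped ContDiff

namespace Vale.Agent.N252

open Vale.Agent.P252 Vale.Agent.P252.R

variable {n : ℕ} {Ω : Set (En n)} {u : En n → ℝ}

theorem amc_brg (h : AMC Ω u) (a : En n) : AMC Ω (brg u a) := by
  have := trans n Ω u (ContinuousLinearEquiv.refl ℝ _) 0 1 (fun i => - pd i u a)
    (-(u a) + ∑ i, pd i u a * a i) one_pos h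
  convert this using 1
  · ext x; simp [trD]
  · funext x
    simp only [tr, brg, mul_sub, Finset.sum_sub_distrib, ContinuousLinearEquiv.refl_apply,
      add_zero, one_mul, neg_mul, Finset.sum_neg_distrib]
    ring

theorem adm_epi (h : AMC Ω u) : Adm (epi Ω u) := fun R ε hε =>
  ⟨Ω, u, h, fun p hp _ => ⟨p, hp, by simpa using hε.le⟩, fun p hp _ => ⟨p, hp, by simpa using hε.le⟩⟩

/-- the vertices of the `m`-th simplex exhausting the open orthant -/
noncomputable def vtx (n k m : ℕ) : Option (Fin n) → En n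
  | none => ((m : ℝ) + 1)⁻¹ • ones n k
  | some i => ((m : ℝ) + 1)⁻¹ • ones n k +
      if i.val < k then EuclideanSpace.single i ((m : ℝ) + 1) else 0

theorem vtx_pos {k m : ℕ} (o : Option (Fin n)) (i : Fin n) (hi : i.val < k) :
    0 < vtx n k m o i := by
  have h1 : (0 : ℝ) < ((m : ℝ) + 1)⁻¹ := by positivity
  rcases o with _ | j
  · simp [vtx, ones, hi, h1]
  · simp only [vtx, PiLp.add_apply, PiLp.smul_apply, ones, hi, if_true, smul_eq_mul, mul_one]
    have : 0 ≤ (if j.val < k then EuclideanSpace.single j ((m : ℝ) + 1) else 0 : En n) i := by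
      split_ifs
      · rw [PiLp.single_apply]
        split_ifs
        · positivity
        · exact le_rfl
      · simp
    linarith

theorem vtx_zero {k m : ℕ} (o : Option (Fin n)) (i : Fin n) (hi : k ≤ i.val) :
    vtx n k m o i = 0 := by
  have hi' : ¬ i.val < k := by omega
  rcases o with _ | j
  · simp [vtx, ones, hi']
  · simp only [vtx, PiLp.add_apply, PiLp.smul_apply, ones, hi', if_false, smul_eq_mul, mul_zero,
      zero_add]
    split_ifs with hj
    · rw [PiLp.single_apply, if_neg]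
      rintro rfl
      exact hi' hj
    · simp

/-- every point of the open orthant is in one of the simplices -/
theorem exists_simplex {k : ℕ} (x : En n) (hx : ∀ i : Fin n, i.val < k → 0 < x i)
    (hx0 : ∀ i : Fin n, k ≤ i.val → x i = 0) :
    ∃ (m : ℕ) (w : Option (Fin n) → ℝ), (∀ o, 0 ≤ w o) ∧ ∑ o, w o = 1 ∧
      ∑ o, w o • vtx n k m o = x := by
  have h1 : ∀ᶠ m : ℕ in atTop, ∀ i : Fin n, i.val < k → ((m : ℝ) + 1)⁻¹ ≤ x i := by
    rw [eventually_all]
    intro i
    by_cases hi : i.val < k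
    · have := (tendsto_one_div_add_atTop_nhds_zero_nat (𝕜 := ℝ)).eventually_le_const (hx i hi)
      filter_upwards [this] with m hm _
      rwa [one_div] at hm
    · exact Eventually.of_forall fun m h => absurd h hi
  have h2 : ∀ᶠ m : ℕ in atTop, ∑ i, |x i| ≤ (m : ℝ) :=
    tendsto_natCast_atTop_atTop.eventually_ge_atTop _
  obtain ⟨m, hm1, hm2⟩ := (h1.and h2).exists
  have hm0 : (0 : ℝ) < (m : ℝ) + 1 := by positivity
  set l : Fin n → ℝ := fun i => if i.val < k then (x i - ((m : ℝ) + 1)⁻¹) / (m + 1) else 0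
    with hl
  have hl0 : ∀ i, 0 ≤ l i := by
    intro i
    simp only [hl]
    split_ifs with hi
    · exact div_nonneg (sub_nonneg.2 (hm1 i hi)) hm0.le
    · exact le_rfl
  have hl1 : ∑ i, l i ≤ 1 := by
    have : ∀ i, l i ≤ |x i| / (m + 1) := by
      intro i
      simp only [hl]
      split_ifs with hi
      · refine div_le_div_of_nonneg_right ?_ hm0.le
        have := le_abs_self (x i)
        have : (0 : ℝ) < ((m : ℝ) + 1)⁻¹ := by positivity
        linarith
      · positivity
    refine (Finset.sum_le_sum fun i _ => this i).trans ?_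
    rw [← Finset.sum_div, div_le_one hm0]
    linarith
  refine ⟨m, fun o => o.elim (1 - ∑ i, l i) l, ?_, ?_, ?_⟩
  · rintro (_ | i)
    · simpa using hl1
    · simpa using hl0 i
  · simp [Fintype.sum_option]
  · rw [Fintype.sum_option]
    simp only [Option.elim, vtx, smul_add, Finset.sum_add_distrib]
    rw [← Finset.sum_smul, ← add_assoc, ← add_smul, sub_add_cancel, one_smul]
    ext i
    simp only [PiLp.add_apply, PiLp.smul_apply, smul_eq_mul, ones, WithLp.ofLp_sum,
      Finset.sum_apply, WithLp.ofLp_smul, Pi.smul_apply]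
    rw [Finset.sum_eq_single i]
    · by_cases hi : i.val < k
      · simp only [hl, hi, if_true, PiLp.single_apply]
        field_simp
        ring
      · simp [hl, hi, hx0 i (by omega)]
    · intro j _ hji
      split_ifs with hj
      · simp [hji.symm]
      · simp
    · simp

/-- A wedge of the domain gives a wedge in the sense of the compactness argument. -/
theorem wedge_of_hasWedge {k : ℕ} (h : AMC Ω u) (hW : HasWedge Ω k) : ∃ K, Wedge n k K := by
  obtain ⟨x₀, T, ε₀, hε₀, hin, hex₀⟩ := hW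
  obtain ⟨a, ha⟩ := h.ne
  set v := brg u a with hv
  have hv : AMC Ω v := amc_brg h a
  have hv0 : ∀ x ∈ Ω, 0 ≤ v x := fun x hx => brg_nonneg h.toSC h.cv ha hx
  have hvc : ∀ t, IsCompact {x | x ∈ Ω ∧ v x ≤ t} := secCompact n Ω u h.toSC h.cv h.cl a ha
  obtain ⟨N, hN⟩ := eventually_atTop.1 (hex₀ (vtx n k 0 none) (vtx_pos none) (vtx_zero none))
  set ε : ℕ → ℝ := fun j => ε₀ (j + N) with hε
  have hεp : ∀ j, 0 < ε j := fun j => hε₀ _
  have hex : ∀ x : En n, (∀ i : Fin n, i.val < k → 0 < x i) →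
      (∀ i : Fin n, k ≤ i.val → x i = 0) → ∀ᶠ j in atTop, x₀ + ε j • T x ∈ Ω :=
    fun x h1 h2 => (tendsto_add_atTop_nat N).eventually (hex₀ x h1 h2)
  have hones : vtx n k 0 none = ones n k := by simp [vtx]
  have hone : ∀ j, x₀ + ε j • T (ones n k) ∈ Ω := fun j => hones ▸ hN _ (Nat.le_add_left N j)
  set S : ℕ → ℝ := fun j => 1 + ∑ m ∈ Finset.range (j + 1), ∑ o : Option (Fin n),
    |v (x₀ + ε j • T (vtx n k m o))| with hS
  have hSv : ∀ j m, m ≤ j → ∀ o, v (x₀ + ε j • T (vtx n k m o)) < S j := by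
    intro j m hm o
    have h1 : |v (x₀ + ε j • T (vtx n k m o))| ≤
        ∑ o : Option (Fin n), |v (x₀ + ε j • T (vtx n k m o))| :=
      Finset.single_le_sum (f := fun o => |v (x₀ + ε j • T (vtx n k m o))|)
        (fun _ _ => abs_nonneg _) (Finset.mem_univ o)
    have h2 := Finset.single_le_sum
      (f := fun m => ∑ o : Option (Fin n), |v (x₀ + ε j • T (vtx n k m o))|)
      (fun _ _ => Finset.sum_nonneg fun _ _ => abs_nonneg _)
      (Finset.mem_range.2 (Nat.lt_succ_of_le hm))
    have h3 := le_abs_self (v (x₀ + ε j • T (vtx n k m o)))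
    simp only [hS]
    linarith
  have hS1 : ∀ j, 1 ≤ S j := fun j => le_add_of_nonneg_right
    (Finset.sum_nonneg fun _ _ => Finset.sum_nonneg fun _ _ => abs_nonneg _)
  set H : ℕ → ℝ := fun j => ((j : ℝ) + 1) * S j with hH
  have hH0 : ∀ j, 0 < H j := fun j => mul_pos (by positivity) (by linarith [hS1 j])
  have hSH : ∀ j, S j ≤ H j := fun j => le_mul_of_one_le_left (by linarith [hS1 j])
    (by linarith [(Nat.cast_nonneg j : (0 : ℝ) ≤ j)])
  let Tj : ℕ → (En n ≃L[ℝ] En n) := fun j =>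
    T.trans (LinearEquiv.smulOfNeZero ℝ (En n) (ε j) (hεp j).ne').toContinuousLinearEquiv
  have hTj : ∀ j x, Tj j x = ε j • T x := fun j x => rfl
  set K : ℕ → Set (En n × ℝ) := fun j => pull (Tj j) x₀ (H j)⁻¹ 0 0 (epi Ω v) with hK
  have hmem : ∀ j (p : En n × ℝ), p ∈ K j ↔
      x₀ + ε j • T p.1 ∈ Ω ∧ v (x₀ + ε j • T p.1) ≤ H j * p.2 := by
    intro j p
    simp only [hK, pull, epi, mem_ofPred_eq, hTj, Pi.zero_apply, zero_mul, Finset.sum_const_zero,
      sub_zero, div_inv_eq_mul, add_comm (ε j • T p.1) x₀, mul_comm p.2]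
  have hcv : ∀ j, Convex ℝ (K j) := by
    intro j p hp q hq s t hs ht hst
    rw [hmem] at hp hq ⊢
    have h1 := H889.amc_convex_epi hv (x := (x₀ + ε j • T p.1, H j * p.2))
      (y := (x₀ + ε j • T q.1, H j * q.2)) hp hq hs ht hst
    have e1 : s • (x₀ + ε j • T p.1) + t • (x₀ + ε j • T q.1) =
        x₀ + ε j • T (s • p + t • q).1 := by
      simp only [Prod.fst_add, Prod.smul_fst, map_add, map_smul, smul_add]
      have : x₀ = s • x₀ + t • x₀ := by rw [← add_smul, hst, one_smul]
      nth_rewrite 3 [this]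
      simp only [smul_comm (ε j)]
      abel
    obtain ⟨h2, h3⟩ := h1
    simp only [Prod.fst_add, Prod.smul_fst, Prod.snd_add, Prod.smul_snd, smul_eq_mul] at h2 h3
    rw [e1] at h2 h3
    refine ⟨h2, h3.trans (le_of_eq ?_)⟩
    simp only [Prod.snd_add, Prod.smul_snd, smul_eq_mul]
    ring
  refine t_limitWedge n k K (fun j => isClosed_pull hv.cl) hcv
    (fun j => t_admPull n _ _ _ _ _ _ (inv_pos.2 (hH0 j)) (adm_epi hv)) ?_ ?_ (fun j => ?_)
    (fun j => ?_)
  · intro p hp2 hp1 hp0
    obtain ⟨m, w, hw0, hw1, hw⟩ := exists_simplex p.1 hp1 hp0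
    have h1 : ∀ᶠ j in atTop, ∀ o, x₀ + ε j • T (vtx n k m o) ∈ Ω :=
      eventually_all.2 fun o => hex _ (vtx_pos o) (vtx_zero o)
    have h2 := (tendsto_one_div_add_atTop_nhds_zero_nat (𝕜 := ℝ)).eventually_le_const hp2
    filter_upwards [h1, h2, eventually_ge_atTop m] with j hj1 hj2 hj3
    have h3 : S j ≤ H j * p.2 := by
      rw [div_le_iff₀ (by positivity)] at hj2
      have : H j * p.2 = S j * (p.2 * ((j : ℝ) + 1)) := by simp only [hH]; ring
      rw [this]
      exact le_mul_of_one_le_right (by linarith [hS1 j]) hj2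
    have h4 := (hcv j).sum_mem (t := Finset.univ) (w := w)
      (z := fun o => ((vtx n k m o, p.2) : En n × ℝ)) (fun o _ => hw0 o) hw1
      (fun o _ => (hmem j _).2 ⟨hj1 o, (hSv j m hj3 o).le.trans h3⟩)
    convert h4 using 1
    ext1
    · simp only [Prod.fst_sum, Prod.smul_fst, hw]
    · simp only [Prod.snd_sum, Prod.smul_snd, smul_eq_mul, ← Finset.sum_mul, hw1, one_mul]
  · intro M δ hδ
    refine Eventually.of_forall fun j p hp _ _ => ?_
    rw [hmem] at hp
    have h1 : 0 ≤ H j * p.2 := (hv0 _ hp.1).trans hp.2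
    have h2 : 0 ≤ p.2 := nonneg_of_mul_nonneg_right h1 (hH0 j) |> fun h => h
    refine ⟨by linarith, fun i hi => ?_⟩
    have h3 := hin (ε j • p.1) (by rw [map_smul]; exact hp.1) i hi
    rw [PiLp.smul_apply, smul_eq_mul] at h3
    have h4 : 0 ≤ p.1 i := nonneg_of_mul_nonneg_right h3 (hεp j) |> fun h => h
    linarith
  · let Φ : En n ≃ₜ En n := (Tj j).toHomeomorph.trans (Homeomorph.addLeft x₀)
    have hc : IsCompact ((Φ ⁻¹' {x | x ∈ Ω ∧ v x ≤ H j}) ×ˢ ({1} : Set ℝ)) :=
      ((Φ.isCompact_preimage).2 (hvc _)).prod isCompact_singleton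
    refine hc.isBounded.subset ?_
    rintro p ⟨hp, hp2, -⟩
    rw [hmem, hp2, mul_one] at hp
    exact ⟨hp, hp2⟩
  · have hc : ContinuousAt (fun y : En n => x₀ + ε j • T (ones n k + y)) 0 := by fun_prop
    have h0 : x₀ + ε j • T (ones n k + 0) ∈ Ω := by rw [add_zero]; exact hone j
    have h1 : ∀ᶠ y in 𝓝 (0 : En n), x₀ + ε j • T (ones n k + y) ∈ Ω :=
      hc.eventually (hv.op.mem_nhds h0)
    have h2 : ContinuousAt (fun y : En n => v (x₀ + ε j • T (ones n k + y))) 0 :=
      ContinuousAt.comp (f := fun y : En n => x₀ + ε j • T (ones n k + y))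
        (hv.sm.continuousOn.continuousAt (hv.op.mem_nhds h0)) hc
    have h3 : ∀ᶠ y in 𝓝 (0 : En n), v (x₀ + ε j • T (ones n k + y)) < H j := by
      refine h2.eventually (gt_mem_nhds ?_)
      have := hSv j 0 (Nat.zero_le j) none
      rw [hones] at this
      simpa using this.trans_le (hSH j)
    obtain ⟨r, hr, hball⟩ := Metric.nhds_basis_closedBall.eventually_iff.1 (h1.and h3)
    refine ⟨r, hr, fun y _ hy => ?_⟩
    rw [hmem]
    have := hball (x := y) (by simpa using hy)
    exact ⟨this.1, by simpa using this.2.le⟩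

end Vale.Agent.N252
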