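import Vale.Agent.N252.Aff2
import Vale.Agent.N252.Cone
import Vale.Agent.P252.R.Final
import Vale.Agent.P252.H47.Main

/-! # Assembly -/

open Filter Topology Set
open scoped ContDiff

namespace Vale.Agent.N252

open Vale.Agent.P252 Vale.Agent.P252.R

variable {n : ℕ} {Ω : Set (En n)} {u : En n → ℝ}

theorem complete_iff_closed (h : SC Ω u) (hcv : Convex ℝ Ω) :
    EuclideanComplete Ω u ↔ IsClosed {p : En n × ℝ | p.1 ∈ Ω ∧ p.2 = u p.1} := by
  have hc : ∀ x ∈ Ω, ContinuousAt u x := fun x hx =>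
    h.sm.continuousOn.continuousAt (h.op.mem_nhds hx)
  constructor
  · intro hE
    have hcl : IsClosed (epi Ω u) := isClosed_epigraph h.op hcv h.sm h.pos hE
    refine isSeqClosed_iff_isClosed.1 fun x p hx hlim => ?_
    have h1 : p ∈ epi Ω u :=
      hcl.mem_of_tendsto hlim (Eventually.of_forall fun k => ⟨(hx k).1, (hx k).2.ge⟩)
    refine ⟨h1.1, tendsto_nhds_unique hlim.snd_nhds ?_⟩
    exact ((hc _ h1.1).tendsto.comp hlim.fst_nhds).congr fun k => (hx k).2.symm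
  · intro hG
    refine euclideanComplete_of_proper h.op hcv h.sm fun M => ?_
    refine isSeqClosed_iff_isClosed.1 fun x y hx hlim => ?_
    have ha := (hx 0).1
    have hl : Tendsto (fun k => u (x 0) + fderiv ℝ u (x 0) (x k - x 0)) atTop
        (𝓝 (u (x 0) + fderiv ℝ u (x 0) (y - x 0))) :=
      (((fderiv ℝ u (x 0)).continuous.tendsto _).comp (hlim.sub_const _)).const_add _
    obtain ⟨B, hB⟩ := hl.bddBelow_range
    have hmem : ∀ k, u (x k) ∈ Icc B M := fun k =>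
      ⟨(hB ⟨k, rfl⟩).trans (tangent_le h.op hcv h.sm h.pos ha (hx k).1), (hx k).2⟩
    obtain ⟨z, hz, φ, hφ, hφl⟩ := isCompact_Icc.tendsto_subseq hmem
    have h1 : (y, z) ∈ {p : En n × ℝ | p.1 ∈ Ω ∧ p.2 = u p.1} :=
      hG.mem_of_tendsto ((hlim.comp hφ.tendsto_atTop).prodMk_nhds hφl)
        (Eventually.of_forall fun k => ⟨(hx _).1, rfl⟩)
    exact ⟨h1.1, h1.2 ▸ hz.2⟩

theorem amc_of (h : IsAffineMaximal Ω u) (hc : EuclideanComplete Ω u ∨ AffineComplete Ω u) :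
    AMC Ω u := by
  obtain ⟨hne, hop, hcv, hsm, hpos, ham⟩ := h
  have hSC : SC Ω u := ⟨hop, hsm, hpos⟩
  have hE : EuclideanComplete Ω u :=
    hc.elim id (euclideanComplete_of_affineComplete hSC hcv)
  exact { toAMLoc := amLog n Ω u hSC ham, ne := hne, cv := hcv, cl := closedEpi n Ω u hSC hne hcv hE }

theorem bernstein_euclid (h2 : 2 ≤ n) :
    (∀ (Ω : Set (En n)) (u : En n → ℝ), IsAffineMaximal Ω u → EuclideanComplete Ω u →
      Ω = univ ∧ IsEllipticParaboloid u) ↔ n ≤ 9 := by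
  rw [← (final_of affineBernstein).1 n h2]
  exact ⟨fun H Ω u h1 h2 h3 h4 h5 h6 h7 => H Ω u ⟨h1, h2, h3, h4, h5, h6⟩ h7,
    fun H Ω u ⟨h1, h2, h3, h4, h5, h6⟩ h7 => H Ω u h1 h2 h3 h4 h5 h6 h7⟩

theorem bernstein_affine (h2 : 2 ≤ n) :
    (∀ (Ω : Set (En n)) (u : En n → ℝ), IsAffineMaximal Ω u → AffineComplete Ω u →
      Ω = univ ∧ IsEllipticParaboloid u) ↔ n ≤ 9 := by
  refine ⟨fun H => ?_, fun h9 Ω u h hA => (bernstein_euclid h2).2 h9 Ω u h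
    (euclideanComplete_of_affineComplete ⟨h.2.1, h.2.2.2.1, h.2.2.2.2.1⟩ h.2.2.1 hA)⟩
  by_contra hc
  obtain ⟨p, rfl⟩ : ∃ p, n = p + 1 := ⟨n - 1, by omega⟩
  obtain ⟨u, h1, h3, h4, h5, h6⟩ := exists_affineComplete p (by omega)
  obtain ⟨-, A, b, c, -, hA⟩ := H univ u
    ⟨univ_nonempty, isOpen_univ, convex_univ, h1.contDiffOn, fun x _ => h3 x, h4⟩ h5
  exact h6 ⟨A, b, c, hA⟩

theorem structure_all (h2 : 2 ≤ n) (h : IsAffineMaximal Ω u)
    (hc : EuclideanComplete Ω u ∨ AffineComplete Ω u) :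
    ¬ Bornology.IsBounded Ω ∧ (¬ ∃ G : ℝ, ∀ x ∈ Ω, ‖fderiv ℝ u x‖ ≤ G) ∧
    (∀ k : ℕ, 1 ≤ k → k ≤ n → HasWedge Ω k →
      2 * k + 2 ≤ n ∧ 4 * (k : ℝ) * ((n : ℝ) - k) ≤ ((n : ℝ) - 2 - 2 * k) ^ 2) ∧
    (n ≤ 16 → NoCorner Ω) := by
  have hA := amc_of h hc
  have hW : ∀ k : ℕ, 1 ≤ k → k ≤ n → HasWedge Ω k → Allowed n k := fun k h1 hk hW =>
    allowed_of_wedge h2 h1 hk (wedge_of_hasWedge hA hW)
  refine ⟨not_bounded (by omega) hA, not_lipschitz (by omega) hA, hW, fun h16 => ?_⟩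
  by_contra hcon
  obtain ⟨h3, h4⟩ := hW 2 one_le_two h2 (hasWedge_two h2 hA.ne hA.op hA.cv hcon)
  have h5 : (6 : ℝ) ≤ n := by exact_mod_cast h3
  have h6 : (n : ℝ) ≤ 16 := by exact_mod_cast h16
  push_cast at h4
  nlinarith

theorem sharp_one (hn : 10 ≤ n) : ∃ (Ω : Set (En n)) (u : En n → ℝ), IsAffineMaximal Ω u ∧
    EuclideanComplete Ω u ∧ AffineComplete Ω u ∧ HasWedge Ω 1 := by
  obtain ⟨p, rfl⟩ : ∃ p, n = p + 1 := ⟨n - 1, by omega⟩
  obtain ⟨v, k1, k2, k3, k4, k5⟩ := exists_half p (by omega)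
  refine ⟨{x | 0 < x 0}, v, ⟨⟨EuclideanSpace.single 0 1, by simp⟩, isOpen_half, convex_half,
    k1, k2, k3⟩, k4, k5, 0, ContinuousLinearEquiv.refl ℝ _, fun _ => 1, fun _ => one_pos,
    fun x hx i hi => ?_, fun x hx _ => Eventually.of_forall fun _ => ?_⟩
  · have : i = 0 := Fin.ext (by simpa using hi)
    subst this
    have h : 0 < x 0 := by simpa using hx
    exact h.le
  · simpa using hx 0 (by simp)

end Vale.Agent.N252
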