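import Vale.Agent.P252.Defs
import Vale.Agent.P252.AffineDefs
import Vale.Agent.P252.BernsteinDefs
import Vale.Agent.N252.Defs
import Vale.Agent.N252.Final

open scoped ContDiff
open Vale.Agent.P252 Vale.Agent.N252

namespace Vale.Agent.N252

theorem oldBothCompleteness :
    -- (1) Q1, in both forms: the assertion holds in dimension `n ≥ 2` iff `n ≤ 9`
    (∀ n : ℕ, 2 ≤ n →
      ((∀ (Ω : Set (EuclideanSpace ℝ (Fin n))) (u : EuclideanSpace ℝ (Fin n) → ℝ),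
        IsAffineMaximal Ω u → EuclideanComplete Ω u →
          Ω = Set.univ ∧ IsEllipticParaboloid u) ↔ n ≤ 9) ∧
      ((∀ u : EuclideanSpace ℝ (Fin n) → ℝ, ContDiff ℝ ∞ u → (∀ x, (hess u x).PosDef) →
        AffineMaximalOn Set.univ u → IsQuadratic u) ↔ n ≤ 9)) ∧
    -- (2) the same answer with affine completeness in place of Euclidean completeness
    (∀ n : ℕ, 2 ≤ n →
      ((∀ (Ω : Set (EuclideanSpace ℝ (Fin n))) (u : EuclideanSpace ℝ (Fin n) → ℝ),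
        IsAffineMaximal Ω u → AffineComplete Ω u →
          Ω = Set.univ ∧ IsEllipticParaboloid u) ↔ n ≤ 9)) ∧
    -- (3) the two notions of completeness (no equation)
    (∀ (n : ℕ) (Ω : Set (EuclideanSpace ℝ (Fin n))) (u : EuclideanSpace ℝ (Fin n) → ℝ),
      IsOpen Ω → Convex ℝ Ω → ContDiffOn ℝ ∞ u Ω → (∀ x ∈ Ω, (hess u x).PosDef) →
        (AffineComplete Ω u → EuclideanComplete Ω u) ∧
        (EuclideanComplete Ω u ↔
          IsClosed {p : EuclideanSpace ℝ (Fin n) × ℝ | p.1 ∈ Ω ∧ p.2 = u p.1})) ∧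
    -- (4) what survives in every dimension
    (∀ n : ℕ, 2 ≤ n →
      ∀ (Ω : Set (EuclideanSpace ℝ (Fin n))) (u : EuclideanSpace ℝ (Fin n) → ℝ),
        IsAffineMaximal Ω u → EuclideanComplete Ω u →
          ¬ Bornology.IsBounded Ω ∧ (¬ ∃ G : ℝ, ∀ x ∈ Ω, ‖fderiv ℝ u x‖ ≤ G) ∧
          (∀ k : ℕ, 1 ≤ k → k ≤ n → HasWedge Ω k →
            2 * k + 2 ≤ n ∧ 4 * (k : ℝ) * ((n : ℝ) - k) ≤ ((n : ℝ) - 2 - 2 * k) ^ 2) ∧
          (n ≤ 16 → NoCorner Ω)) ∧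
    -- (5) the wedge condition is sharp for `k = 1`
    (∀ n : ℕ, 10 ≤ n →
      ∃ (Ω : Set (EuclideanSpace ℝ (Fin n))) (u : EuclideanSpace ℝ (Fin n) → ℝ),
        IsAffineMaximal Ω u ∧ EuclideanComplete Ω u ∧ AffineComplete Ω u ∧ HasWedge Ω 1) :=
  ⟨fun n hn => ⟨bernstein_euclid hn, (R.final_of R.affineBernstein).2 n hn⟩,
    fun _ hn => bernstein_affine hn,
    fun _ _ _ h1 h2 h3 h4 => ⟨euclideanComplete_of_affineComplete ⟨h1, h3, h4⟩ h2,
      complete_iff_closed ⟨h1, h3, h4⟩ h2⟩,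
    fun _ hn _ _ h hc => structure_all hn h (Or.inl hc), fun _ hn => sharp_one hn⟩

end Vale.Agent.N252
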