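import Vale.Agent.P252.R.Main

/-! # The key inequality (star) with a free parameter, and wedges in every dimension

`Wedge n k K` (a limit of complete affine maximal graphs with `k + 1` arms) is impossible unless
`2k + 2 ≤ n` and `4k(n-k) ≤ (n-2-2k)²`. -/

open MeasureTheory Filter Topology
open scoped ContDiff

namespace Vale.Agent.N252

open Vale.Agent.P252 Vale.Agent.P252.H888

variable {n : ℕ}

/-- the integral inequality, from the divergence identity on the support of the cut-off -/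
theorem star_core' {S : Finset (Fin n)} {u η : EuclideanSpace ℝ (Fin n) → ℝ}
    {Ω : Set (EuclideanSpace ℝ (Fin n))} (hΩ : IsOpen Ω) (hu : ContDiffOn ℝ ∞ u Ω)
    (hpos : ∀ x ∈ Ω, (hess u x).PosDef) (hη : ContDiff ℝ ∞ η) (hc : HasCompactSupport η)
    (hsub : tsupport η ⊆ Ω) (hB : ∀ x ∈ tsupport η, 0 < Bf S u x) {t κ : ℝ} (hκ : 0 < κ)
    (hform : ∀ A C X : ℝ, 0 ≤ A → 0 ≤ C → X ^ 2 ≤ A * C → κ * (A + C) ≤
      (n * t / 2) * A + (n / 2 : ℝ) * C - ((t * (n + 2) - (n - 2)) / 2) * X)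
    (hid : ∀ x ∈ tsupport η, StarIdentityAt S t u x) :
    ((S.card : ℝ) - t * (n - S.card)) * ∫ x, η x ^ 2 * wt S u (-(n : ℝ) / 2) x ≤
      2 * (2 * (1 + t ^ 2) / κ) *
        ∫ x, wt S u (-((n : ℝ) - 2) / 2) x * ip u x (R.gr η x) (R.gr η x) := by
  set k := S.card with hkdef
  have hsm : ∀ x ∈ tsupport η, ContDiffAt ℝ ∞ u x := fun x hx =>
    hu.contDiffAt (hΩ.mem_nhds (hsub hx))
  have hdet : ∀ x ∈ tsupport η, 0 < (hess u x).det := fun x hx => (hpos x (hsub hx)).det_pos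
  have hwt : ∀ p, ∀ x ∈ tsupport η, 0 < wt S u p x := fun p x hx =>
    mul_pos (Real.sqrt_pos.2 (hdet x hx)) (Real.rpow_pos_of_pos (hB x hx) _)
  have hη1 : ContDiff ℝ 1 η := hη.of_le (by exact_mod_cast le_top)
  have hηd : ∀ i x, ContDiffAt ℝ ∞ (fun y => R.gr η y i) x := fun i x =>
    contDiffAt_pd hη.contDiffAt i
  have hz1 : ∀ (i : Fin n) x, x ∉ tsupport η → pd i η x = 0 := by
    intro i x hx
    have : fderiv ℝ η x = 0 := by
      by_contra h
      exact hx (tsupport_fderiv_subset ℝ (subset_tsupport _ h))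
    simp [pd, this]
  -- the four functions
  set P : EuclideanSpace ℝ (Fin n) → ℝ := fun x => ((k : ℝ) - t * (n - k)) * wt S u (-(n : ℝ) / 2) x
    with hP
  set Q : EuclideanSpace ℝ (Fin n) → ℝ :=
    fun x => wt S u (-((n : ℝ) - 2) / 2) x * qform S t u x with hQ
  set W : EuclideanSpace ℝ (Fin n) → ℝ :=
    fun x => wt S u (-((n : ℝ) - 2) / 2) x * ip u x (R.gr η x) (R.gr η x) with hW
  have hqform : ∀ x ∈ tsupport η,
      κ * (ip u x (av S u x) (av S u x) + ip u x (bv S u x) (bv S u x)) ≤ qform S t u x := by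
    intro x hx
    have hp := hpos x (hsub hx)
    exact hform _ _ _ (ip_nonneg hp _) (ip_nonneg hp _) (ip_cauchy hp _ _)
  have hq0 : ∀ x ∈ tsupport η, 0 ≤ qform S t u x := by
    intro x hx
    have hp := hpos x (hsub hx)
    have := hqform x hx
    have h1 := ip_nonneg hp (av S u x)
    have h2 := ip_nonneg hp (bv S u x)
    have h3 := mul_nonneg hκ.le (add_nonneg h1 h2)
    linarith
  have hWz : ∀ x, x ∉ tsupport η → W x = 0 := by
    intro x hx
    have : R.gr η x = 0 := by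
      funext i
      exact hz1 i x hx
    rw [hW]
    simp [this, ip]
  have hWsm : ∀ x ∈ tsupport η, ContDiffAt ℝ ∞ W x := fun x hx =>
    (contDiffAt_wt (hsm x hx) (hdet x hx).ne' (hB x hx).ne').mul
      (contDiffAt_ip (hsm x hx) (hdet x hx).ne' (fun i => hηd i x) (fun i => hηd i x))
  have hWi : Integrable W := by
    have hsubW : tsupport W ⊆ tsupport η := by
      apply closure_minimal _ (isClosed_tsupport η)
      intro x hx
      by_contra h
      exact hx (hWz x h)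
    have hcont : Continuous W :=
      continuous_of_tsupport fun x hx => (hWsm x (hsubW hx)).continuousAt
    exact hcont.integrable_of_hasCompactSupport
      (hc.isCompact.of_isClosed_subset (isClosed_tsupport _) hsubW)
  have hmain := caccioppoli (η := η) (Y := Yf S t u) (P := P) (Q := Q) (W := W)
    (K := 2 * (1 + t ^ 2) / κ) (by positivity) hη1 hc
    (fun i x hx => (contDiffAt_Yf (hsm x hx) (hdet x hx).ne' (hB x hx).ne' i).of_le
      (by exact_mod_cast le_top))
    (fun x hx => ((contDiffAt_wt (hsm x hx) (hdet x hx).ne' (hB x hx).ne').continuousAt).const_mul _)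
    (fun x hx => ?_) hWi (fun x hx => mul_nonneg (hwt _ x hx).le (hq0 x hx)) (fun x => ?_)
    (fun x hx => ?_) (fun x hx => ?_)
  · have hQpos : 0 ≤ ∫ x, η x ^ 2 * Q x := by
      refine integral_nonneg fun x => ?_
      by_cases hx : x ∈ tsupport η
      · exact mul_nonneg (sq_nonneg _) (mul_nonneg (hwt _ x hx).le (hq0 x hx))
      · simp [image_eq_zero_of_notMem_tsupport hx]
    have hPint : ∫ x, η x ^ 2 * P x
        = ((k : ℝ) - t * (n - k)) * ∫ x, η x ^ 2 * wt S u (-(n : ℝ) / 2) x := by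
      rw [← integral_const_mul]
      refine integral_congr_ae (Eventually.of_forall fun x => ?_)
      simp only [hP]; ring
    rw [hPint] at hmain
    linarith
  · -- continuity of `Q`
    have h1 := contDiffAt_ip (hsm x hx) (hdet x hx).ne' (ξ := fun y => av S u y)
      (ζ := fun y => av S u y) (fun i => contDiffAt_av (hsm x hx) (hB x hx).ne' i)
      (fun i => contDiffAt_av (hsm x hx) (hB x hx).ne' i)
    have h2 := contDiffAt_ip (hsm x hx) (hdet x hx).ne' (ξ := fun y => bv S u y)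
      (ζ := fun y => bv S u y)
      (fun i => contDiffAt_bv (hsm x hx) (hdet x hx).ne' (hB x hx).ne' i)
      (fun i => contDiffAt_bv (hsm x hx) (hdet x hx).ne' (hB x hx).ne' i)
    have h3 := contDiffAt_ip (hsm x hx) (hdet x hx).ne' (ξ := fun y => av S u y)
      (ζ := fun y => bv S u y)
      (fun i => contDiffAt_av (hsm x hx) (hB x hx).ne' i)
      (fun i => contDiffAt_bv (hsm x hx) (hdet x hx).ne' (hB x hx).ne' i)
    exact ((contDiffAt_wt (hsm x hx) (hdet x hx).ne' (hB x hx).ne').continuousAt).mul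
      ((((h1.continuousAt).const_mul _).add ((h2.continuousAt).const_mul _)).sub
        ((h3.continuousAt).const_mul _))
  · -- `W ≥ 0`
    by_cases hx : x ∈ tsupport η
    · exact mul_nonneg (hwt _ x hx).le (ip_nonneg (hpos x (hsub hx)) _)
    · rw [hWz x hx]
  · -- the divergence
    rw [hid x hx]
    apply le_of_eq
    simp only [hP, hQ]; ring
  · -- Cauchy-Schwarz
    have hp := hpos x (hsub hx)
    have h1 : ∑ i, pd i η x * Yf S t u i x
        = wt S u (-((n : ℝ) - 2) / 2) x * ip u x (R.gr η x) (t • av S u x + bv S u x) := by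
      rw [← sum_mul_inv_mul]
      rfl
    rw [h1, mul_pow]
    have h2 := ip_cauchy hp (R.gr η x) (t • av S u x + bv S u x)
    have hA := ip_nonneg hp (av S u x)
    have hC := ip_nonneg hp (bv S u x)
    have hg := ip_nonneg hp (R.gr η x)
    have h3 : ip u x (t • av S u x + bv S u x) (t • av S u x + bv S u x)
        ≤ 2 * (1 + t ^ 2) * (ip u x (av S u x) (av S u x) + ip u x (bv S u x) (bv S u x)) := by
      have hm := ip_nonneg hp (t • av S u x + (-1 : ℝ) • bv S u x)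
      rw [ip_add_left, ip_add_right, ip_add_right, ip_smul_left, ip_smul_right, ip_smul_left,
        ip_smul_right, ip_smul_left, ip_smul_right, ip_smul_left, ip_smul_right,
        ip_comm hp (bv S u x) (av S u x)] at hm
      rw [ip_add_left, ip_add_right, ip_add_right, ip_smul_left, ip_smul_right, ip_smul_left,
        ip_smul_right, ip_comm hp (bv S u x) (av S u x)]
      nlinarith [mul_nonneg (sq_nonneg t) hC]
    have h4 : ip u x (t • av S u x + bv S u x) (t • av S u x + bv S u x)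
        ≤ 2 * (1 + t ^ 2) / κ * qform S t u x := by
      have h5 := mul_le_mul_of_nonneg_left (hqform x hx)
        (show 0 ≤ 2 * (1 + t ^ 2) / κ by positivity)
      rw [← mul_assoc, div_mul_cancel₀ _ hκ.ne'] at h5
      linarith
    have hw := hwt (-((n : ℝ) - 2) / 2) x hx
    calc wt S u (-((n : ℝ) - 2) / 2) x ^ 2 *
          ip u x (R.gr η x) (t • av S u x + bv S u x) ^ 2
        ≤ wt S u (-((n : ℝ) - 2) / 2) x ^ 2 *
          (ip u x (R.gr η x) (R.gr η x) * (2 * (1 + t ^ 2) / κ * qform S t u x)) := by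
            refine mul_le_mul_of_nonneg_left (h2.trans ?_) (sq_nonneg _)
            exact mul_le_mul_of_nonneg_left h4 hg
      _ = 2 * (1 + t ^ 2) / κ * Q x * W x := by simp only [hQ, hW]; ring


/-- a positive definite binary form dominates `κ (A + C)` -/
theorem form_pos' {α β γ : ℝ} (hα : 0 < α) (hβ : 0 < β) (h : γ ^ 2 < 4 * α * β) :
    ∃ κ : ℝ, 0 < κ ∧ ∀ A C X : ℝ, 0 ≤ A → 0 ≤ C → X ^ 2 ≤ A * C →
      κ * (A + C) ≤ α * A + β * C - γ * X := by
  set κ : ℝ := (4 * α * β - γ ^ 2) / (4 * (α + β)) with hκ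
  have hs : 0 < 4 * (α + β) := by positivity
  have hκ0 : 0 < κ := div_pos (by linarith) hs
  have hκe : κ * (4 * (α + β)) = 4 * α * β - γ ^ 2 := div_mul_cancel₀ _ hs.ne'
  have hκα : κ ≤ α := by
    rw [hκ, div_le_iff₀ hs]
    nlinarith [sq_nonneg γ, mul_pos hα hα]
  have hκβ : κ ≤ β := by
    rw [hκ, div_le_iff₀ hs]
    nlinarith [sq_nonneg γ, mul_pos hβ hβ]
  refine ⟨κ, hκ0, fun A C X hA hC hX => ?_⟩
  have hγ : γ ^ 2 ≤ 4 * (α - κ) * (β - κ) := by nlinarith [sq_nonneg κ]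
  have ha : 0 ≤ α - κ := by linarith
  have hb : 0 ≤ β - κ := by linarith
  have h1 : γ * X ≤ |γ * X| := le_abs_self _
  have h2 : (γ * X) ^ 2 ≤ ((α - κ) * A + (β - κ) * C) ^ 2 := by
    have : (γ * X) ^ 2 ≤ 4 * (α - κ) * (β - κ) * (A * C) := by
      rw [mul_pow]
      exact mul_le_mul hγ hX (sq_nonneg _) (by positivity)
    nlinarith [sq_nonneg ((α - κ) * A - (β - κ) * C)]
  have h3 : |γ * X| ≤ (α - κ) * A + (β - κ) * C := abs_le_of_sq_le_sq h2 (by positivity)
  linarith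

/-- The numerical condition under which `k + 1` arms are not excluded. -/
def Allowed (n k : ℕ) : Prop :=
  2 * k + 2 ≤ n ∧ 4 * (k : ℝ) * ((n : ℝ) - k) ≤ ((n : ℝ) - 2 - 2 * k) ^ 2

/-- the choice of the parameter -/
theorem exists_param {k : ℕ} (h2 : 2 ≤ n) (hk : 1 ≤ k) (hkn : k ≤ n) (h : ¬ Allowed n k) :
    ∃ t : ℝ, 0 < t ∧ t * ((n : ℝ) - k) < k ∧
      (t * ((n : ℝ) + 2) - (n - 2)) ^ 2 < 4 * (n : ℝ) ^ 2 * t := by
  have hkR : (1 : ℝ) ≤ k := by exact_mod_cast hk
  have hknR : (k : ℝ) ≤ n := by exact_mod_cast hkn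
  rcases eq_or_lt_of_le h2 with rfl | h3
  · refine ⟨1 / 2, by norm_num, ?_, by norm_num⟩
    push_cast
    linarith
  have h3R : (3 : ℝ) ≤ n := by exact_mod_cast h3
  by_cases hc : 2 * k + 2 ≤ n
  · have hlt : ((n : ℝ) - 2 - 2 * k) ^ 2 < 4 * (k : ℝ) * ((n : ℝ) - k) := by
      by_contra hcon
      exact h ⟨hc, not_lt.1 hcon⟩
    have hcR : 2 * (k : ℝ) + 2 ≤ n := by exact_mod_cast hc
    have hd : (0 : ℝ) < n - k := by linarith
    set t1 : ℝ := k / (n - k) with ht1
    have ht10 : 0 < t1 := by positivity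
    have hf : (t1 * ((n : ℝ) + 2) - (n - 2)) ^ 2 < 4 * (n : ℝ) ^ 2 * t1 := by
      have e1 : t1 * ((n : ℝ) + 2) - (n - 2) = -(n * (n - 2 - 2 * k)) / (n - k) := by
        rw [ht1]; field_simp; ring
      have e2 : 4 * (n : ℝ) ^ 2 * t1 = n ^ 2 * (4 * k * (n - k)) / (n - k) ^ 2 := by
        rw [ht1]; field_simp
      rw [e1, e2, div_pow, neg_sq, mul_pow]
      have hn0 : (0 : ℝ) < (n : ℝ) ^ 2 := by positivity
      exact div_lt_div_of_pos_right (mul_lt_mul_of_pos_left hlt hn0) (by positivity)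
    have hev : ∀ᶠ t in 𝓝 t1, (t * ((n : ℝ) + 2) - (n - 2)) ^ 2 < 4 * (n : ℝ) ^ 2 * t :=
      ContinuousAt.eventually_lt (by fun_prop) (by fun_prop) hf
    have hev2 : ∀ᶠ t in 𝓝[<] t1, (0 < t ∧ (t * ((n : ℝ) + 2) - (n - 2)) ^ 2 <
        4 * (n : ℝ) ^ 2 * t) ∧ t < t1 :=
      (((lt_mem_nhds ht10).and hev).filter_mono nhdsWithin_le_nhds).and self_mem_nhdsWithin
    obtain ⟨t, ⟨h0, h1⟩, h4⟩ := hev2.exists
    refine ⟨t, h0, ?_, h1⟩
    rwa [ht1, lt_div_iff₀ hd] at h4
  · have hcR : (n : ℝ) < 2 * k + 2 := by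
      have : n < 2 * k + 2 := by omega
      exact_mod_cast this
    have hp : (0 : ℝ) < n + 2 := by linarith
    refine ⟨((n : ℝ) - 2) / (n + 2), div_pos (by linarith) hp, ?_, ?_⟩
    · rw [div_mul_eq_mul_div, div_lt_iff₀ hp]
      nlinarith
    · rw [div_mul_cancel₀ _ hp.ne', sub_self]
      have : 0 < ((n : ℝ) - 2) / (n + 2) := div_pos (by linarith) hp
      rw [zero_pow two_ne_zero]
      positivity

/-- (star) holds whenever `(n, k)` is not allowed -/
theorem star' {k : ℕ} (h2 : 2 ≤ n) (hk : 1 ≤ k) (hkn : k ≤ n) (h : ¬ Allowed n k) :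
    R.Stmt_star n k := by
  obtain ⟨t, ht0, ht1, ht2⟩ := exists_param h2 hk hkn h
  have hn0 : (0 : ℝ) < n := by exact_mod_cast (lt_of_lt_of_le hk hkn)
  obtain ⟨κ, hκ, hform⟩ := form_pos' (α := n * t / 2) (β := (n : ℝ) / 2)
    (γ := (t * (n + 2) - (n - 2)) / 2) (by positivity) (by positivity) (by nlinarith)
  have hc0 : 0 < (k : ℝ) - t * (n - k) := by linarith
  refine ⟨((k : ℝ) - t * (n - k))⁻¹ * (2 * (2 * (1 + t ^ 2) / κ)), by positivity, ?_⟩
  intro Ω u η hu hη hc hsub hB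
  have hB' : ∀ x ∈ tsupport η, 0 < Bf (Sk n k) u x := by
    intro x hx
    rw [Bf_Sk]
    exact hB x hx
  have hcard : (Sk n k).card = k := card_Sk hkn
  have key := star_core' (S := Sk n k) hu.op hu.sm hu.pos hη hc hsub hB' hκ hform
    (fun x hx => C.star_identity (hu.sm.contDiffAt (hu.op.mem_nhds (hsub hx)))
      (hu.pos x (hsub hx)).det_pos (hu.am x (hsub hx)) (hB' x hx) t)
  rw [hcard] at key
  have e1 : ∀ p x, wt (Sk n k) u p x = R.Bf k u x ^ p * Real.sqrt (R.dt u x) := by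
    intro p x
    unfold wt R.dt
    rw [Bf_Sk]
    ring
  simp only [e1, ip_eq_R] at key
  rw [mul_assoc, le_inv_mul_iff₀ hc0]
  exact key

theorem allowed_of_le {k m : ℕ} (hkm : k ≤ m) (h : Allowed n m) : Allowed n k := by
  obtain ⟨h1, h2⟩ := h
  refine ⟨by omega, ?_⟩
  have h1R : 2 * (m : ℝ) + 2 ≤ n := by exact_mod_cast h1
  have hkmR : (k : ℝ) ≤ m := by exact_mod_cast hkm
  have hk0 : (0 : ℝ) ≤ k := Nat.cast_nonneg k
  have e1 : 4 * (k : ℝ) * (n - k) ≤ 4 * m * (n - m) := by nlinarith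
  have e2 : ((n : ℝ) - 2 - 2 * m) ^ 2 ≤ (n - 2 - 2 * k) ^ 2 :=
    pow_le_pow_left₀ (by linarith) (by linarith) 2
  linarith

/-- **Wedges in every dimension.** -/
theorem allowed_of_wedge {k : ℕ} (h2 : 2 ≤ n) (hk : 1 ≤ k) (hkn : k ≤ n)
    (hW : ∃ K, R.Wedge n k K) : Allowed n k := by
  classical
  set P : ℕ → Prop := fun m => k ≤ m ∧ m ≤ n ∧ ∃ K, R.Wedge n m K with hP
  have hspec : P (Nat.findGreatest P n) := Nat.findGreatest_spec (P := P) hkn ⟨le_rfl, hkn, hW⟩
  have hmax : ∀ m, P m → m ≤ Nat.findGreatest P n := fun m hm => Nat.le_findGreatest hm.2.1 hm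
  set m := Nat.findGreatest P n with hm
  obtain ⟨hkm, hmn, K, hK⟩ := hspec
  have p1 : R.P1 n m := by
    rcases eq_or_lt_of_le hmn with he | hlt
    · rw [he]; exact R.P1_self n
    · by_contra hc
      have := hmax (m + 1) ⟨by omega, hlt, R.t_P1 n m hlt hc⟩
      omega
  refine allowed_of_le hkm ?_
  by_contra hna
  have hm1 : 1 ≤ m := hk.trans hkm
  obtain ⟨C, c, τ, T, hC, hc, hτ, hτ1, hT, H⟩ := R.cells hm1 hmn (R.t_cellErr n m h2)
    (R.t_cellMain n m) (R.t_rescale n m) K hK p1 (R.t_P2 n m p1)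
  exact R.count n m hm1 hmn (star' h2 hm1 hmn hna) C c τ T hC hc hτ hτ1 hT H

end Vale.Agent.N252
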